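import Claimed.Agent.R252.S3e2.Alg
import Claimed.Agent.R252.Remez.Mv

/-!
# ROW 252 (S0492), unit S3e2, file 3: RANDOM ANCHORS AND DETOURS, SUBLEVEL SETS, CHARGES      CONTRACT (sub-architect helper133, chief helper70)   -- KEEP
PAPER-FREE.  Overview: header of `S3e2/Contract.lean`.  The `sorry`s are the leaves `L-252-S3e2-M*`.  Prove IN PLACE.   (M1 may add `import Claimed.Agent.R252.Remez.Mv`.)
-/

set_option autoImplicit false

namespace Claimed.Agent.R252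

open MeasureTheory Polynomial
open scoped ENNReal BigOperators

noncomputable section

variable {n : ℕ}

/-! ## 4. Anchors: measure statements -/

/-- the quadric as a polynomial -/
def k3e2Pol (D : K3bQd n) : MvPolynomial (Fin n) ℝ :=
  MvPolynomial.C D.c0 + ∑ i, MvPolynomial.C (D.c1 i) * MvPolynomial.X i
    + ∑ i, ∑ j, MvPolynomial.C (D.c2 i j) * MvPolynomial.X i * MvPolynomial.X j

theorem k3e2_pol_eval (D : K3bQd n) (x : Fin n → ℝ) : MvPolynomial.eval x (k3e2Pol D) = D.evR x := by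
  simp [k3e2Pol, K3bQd.evR]

theorem k3e2_pol_aeval (D : K3bQd n) (z : Fin n → ℂ) : MvPolynomial.aeval z (k3e2Pol D) = D.ev z := by
  simp [k3e2Pol, K3bQd.ev]

theorem k3e2_pol_deg (D : K3bQd n) : (k3e2Pol D).totalDegree ≤ 2 := by
  unfold k3e2Pol
  refine (MvPolynomial.totalDegree_add _ _).trans (max_le ((MvPolynomial.totalDegree_add _ _).trans (max_le ?_ ?_)) ?_)
  · simp
  · refine MvPolynomial.totalDegree_finsetSum_le fun i _ => ?_
    refine (MvPolynomial.totalDegree_mul _ _).trans ?_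
    simp
  · refine MvPolynomial.totalDegree_finsetSum_le fun i _ => MvPolynomial.totalDegree_finsetSum_le fun j _ => ?_
    refine (MvPolynomial.totalDegree_mul _ _).trans ?_
    have h1 : (MvPolynomial.C (D.c2 i j) * MvPolynomial.X i : MvPolynomial (Fin n) ℝ).totalDegree ≤ 1 := by
      refine (MvPolynomial.totalDegree_mul _ _).trans ?_
      simp
    have h2 : (MvPolynomial.X j : MvPolynomial (Fin n) ℝ).totalDegree = 1 := MvPolynomial.totalDegree_X j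
    omega

/-- **LEAF L-252-S3e2-M1: sublevel sets of a real quadric in the cube** (03 l.1349-1352 and l.1519-1529).  Route 1: `R252/Remez/Mv.lean` (`rmz_box` / `rmz_mv`, `rmz_Cm_le`) after writing `D` as an `MvPolynomial` of degree `≤ 2` in each variable: with `θ` the relative volume,
`κ ≤ ‖D z‖ ≤ 9 nm`, `nm ≤ C θ^(-2n) ε`.   Route 2 (elementary): walk from `z` to `x` one coordinate at a time; `k3b_quad_lower` (recentred): outside two intervals of length `2ρ` the value drops by at most `(ρ/6)²`; Fubini. -/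
theorem k3e2_sublevel (n : ℕ) (hn : 1 ≤ n) : ∃ C : ℝ, 1 ≤ C ∧ ∀ (D : K3bQd n) (κ ε : ℝ), 0 < κ → 0 ≤ ε → (∃ z : Fin n → ℂ, ‖z‖ ≤ 2 ∧ κ ≤ ‖D.ev z‖) →
    volume {x : Fin n → ℝ | x ∈ k3bCube n 1 ∧ |D.evR x| ≤ ε} ≤ ENNReal.ofReal (C * (ε / κ) ^ (1 / (2 * (n : ℝ)))) := by
  obtain ⟨A, hA⟩ : ∃ A : ℝ, A = ((((2 : ℕ) : ℝ) + 1) ^ 2 * (8 * (((2 : ℕ) : ℝ) + 1) * 2 ^ n) ^ 2) ^ n := ⟨_, rfl⟩
  have hA0 : 0 < A := by rw [hA]; positivity
  obtain ⟨B, hB⟩ : ∃ B : ℝ, B = A * (3 / 2) ^ (n * 2) := ⟨_, rfl⟩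
  have hB0 : 0 < B := by rw [hB]; positivity
  obtain ⟨w, hw⟩ : ∃ w : ℝ, w = 1 / (2 * (n : ℝ)) := ⟨_, rfl⟩
  have hn0 : (0 : ℝ) < n := by exact_mod_cast hn
  have hw0 : 0 < w := by rw [hw]; positivity
  rw [← hw]
  refine ⟨max 1 (2 ^ n * B ^ w), le_max_left _ _, fun D κ ε hκ hε hz => ?_⟩
  obtain ⟨z, hz2, hzκ⟩ := hz
  obtain ⟨E, hE⟩ : ∃ E : Set (Fin n → ℝ), E = {x : Fin n → ℝ | x ∈ k3bCube n 1 ∧ |D.evR x| ≤ ε} := ⟨_, rfl⟩
  rw [← hE]
  have hcube : k3bCube n 1 = Set.Icc (fun _ => (-1 : ℝ)) (fun _ => (1 : ℝ)) := by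
    ext x
    simp only [k3bCube, Set.mem_ofPred_eq, Set.mem_Icc, Pi.le_def, abs_le]
    exact forall_and
  have hEsub : E ⊆ Set.Icc (fun _ => (-1 : ℝ)) (fun _ => (1 : ℝ)) := by
    intro x hx
    rw [hE] at hx
    rw [← hcube]
    exact hx.1
  have hvolc : volume (Set.Icc (fun _ : Fin n => (-1 : ℝ)) (fun _ => (1 : ℝ))) = ENNReal.ofReal (2 ^ n) := by
    rw [Real.volume_Icc_pi]
    simp only [Finset.prod_const, Finset.card_univ, Fintype.card_fin]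
    rw [← ENNReal.ofReal_pow (by norm_num)]
    norm_num
  have hEtop : volume E ≠ ∞ := ne_top_of_le_ne_top (by rw [hvolc]; exact ENNReal.ofReal_ne_top) (measure_mono hEsub)
  by_cases hE0 : volume E = 0
  · rw [hE0]
    exact zero_le
  obtain ⟨θ, hθ⟩ : ∃ θ : ℝ, θ = (volume E).toReal / 2 ^ n := ⟨_, rfl⟩
  have hθ0 : 0 < θ := by
    rw [hθ]
    exact div_pos (ENNReal.toReal_pos hE0 hEtop) (by positivity)
  have hvolE : volume E = ENNReal.ofReal (θ * 2 ^ n) := by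
    rw [hθ, div_mul_cancel₀ _ (by positivity), ENNReal.ofReal_toReal hEtop]
  have hdeg : ∀ i, (k3e2Pol D).degreeOf i ≤ 2 := fun i => rmz_degreeOf_le _ 2 (k3e2_pol_deg D) i
  have h1 := rmz_box n 2 (k3e2Pol D) hdeg (fun _ => -1) (fun _ => 1) (fun _ => by norm_num) θ ε hθ0 E hEsub
    (by rw [hvolc, hvolE, ENNReal.ofReal_mul hθ0.le]) (fun x hx => by
      rw [k3e2_pol_eval]
      rw [hE] at hx
      exact hx.2)
  have h2 := rmz_box_aeval n 2 (k3e2Pol D) hdeg (fun _ => -1) (fun _ => 1) (fun _ => by norm_num) (3 / 2) (by norm_num) z (fun i => by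
    have h3 : ‖z i‖ ≤ 2 := (norm_le_pi_norm z i).trans hz2
    calc ‖z i - ((-1 : ℝ) : ℂ)‖ ≤ ‖z i‖ + ‖((-1 : ℝ) : ℂ)‖ := norm_sub_le _ _
      _ ≤ 2 + 1 := by
          gcongr
          simp
      _ = 3 / 2 * (1 - -1) := by norm_num)
  rw [k3e2_pol_aeval] at h2
  have h3 := rmz_Cm_le n 2 θ hθ0
  rw [← hA] at h3
  have h4 : κ * θ ^ (n * 2) ≤ B * ε := by
    have h5 : κ ≤ A * (θ⁻¹) ^ (n * 2) * ε * (3 / 2) ^ (n * 2) := by
      refine hzκ.trans (h2.trans ?_)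
      gcongr
      exact h1.trans (by gcongr)
    have h6 : (θ⁻¹) ^ (n * 2) * θ ^ (n * 2) = 1 := by
      rw [← mul_pow, inv_mul_cancel₀ hθ0.ne', one_pow]
    calc κ * θ ^ (n * 2) ≤ A * (θ⁻¹) ^ (n * 2) * ε * (3 / 2) ^ (n * 2) * θ ^ (n * 2) := by gcongr
      _ = A * (3 / 2) ^ (n * 2) * ε * ((θ⁻¹) ^ (n * 2) * θ ^ (n * 2)) := by ring
      _ = B * ε := by rw [h6, mul_one, hB]
  have h7 : θ ≤ B ^ w * (ε / κ) ^ w := by
    have h8 : θ ^ (n * 2) ≤ B * (ε / κ) := by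
      rw [mul_div_assoc', le_div_iff₀ hκ, mul_comm]
      exact h4
    have h9 : (θ ^ (n * 2)) ^ w = θ := by
      have : w = (((n * 2 : ℕ) : ℝ))⁻¹ := by
        rw [hw]
        push_cast
        rw [one_div, mul_comm]
      rw [this]
      exact Real.pow_rpow_inv_natCast hθ0.le (by omega)
    calc θ = (θ ^ (n * 2)) ^ w := h9.symm
      _ ≤ (B * (ε / κ)) ^ w := Real.rpow_le_rpow (by positivity) h8 hw0.le
      _ = _ := Real.mul_rpow hB0.le (by positivity)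
  rw [hvolE]
  refine ENNReal.ofReal_le_ofReal ?_
  calc θ * 2 ^ n ≤ B ^ w * (ε / κ) ^ w * 2 ^ n := by gcongr
    _ = 2 ^ n * B ^ w * (ε / κ) ^ w := by ring
    _ ≤ _ := by
        gcongr
        exact le_max_right _ _

/-- **LEAF L-252-S3e2-M2: a random detour is safe** (03 l.1353-1375).  `k3e2_bd_line` on the line `a = z0`, `v = α - z0`: `‖q‖ ≤ 4 K`, `q0 = D z0`, `q0 + q1 + q2 = D α`.  `k3b_tube_prob` with `K' = 4 K`: outside the bad set `‖D‖ ≥ (ρ/6)²/(4K)` on the path;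
`k3e2_bd_lip` (`‖k3bPt z0 α s‖ ≤ 7`) extends it to `‖u‖ ≤ ρ²/(C K²)`. -/
theorem k3e2_safe_sigma (n : ℕ) : ∃ C : ℝ, 1 ≤ C ∧ ∀ (K ρ : ℝ), 1 ≤ K → 0 < ρ → C * K ^ 2 * ρ ≤ 1 → ∀ (D : K3bQd n) (z0 α : Fin n → ℂ), ‖z0‖ ≤ 1 → ‖α‖ ≤ 2 → K3e2Bd D K →
    1 / K ≤ ‖D.ev z0‖ → 1 / K ≤ ‖D.ev α‖ →
    volume {σ : ℂ | ‖σ‖ ≤ 2 ∧ ¬ K3bSafe D z0 α σ (C * K ^ 2 / ρ ^ 2)} ≤ ENNReal.ofReal (C * K ^ 2 * ρ) := by
  obtain ⟨C0, hC0, H⟩ := k3b_tube_prob
  refine ⟨16 * C0 + 576, by linarith, ?_⟩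
  intro K ρ hK hρ hC D z0 α hz0 hα hbd hl0 hlα
  obtain ⟨C, hCdef⟩ : ∃ C : ℝ, C = 16 * C0 + 576 := ⟨_, rfl⟩
  rw [← hCdef] at hC ⊢
  have hC576 : 576 ≤ C := by linarith
  have hK0 : 0 < K := by linarith
  have hK2 : 1 ≤ K ^ 2 := one_le_pow₀ hK
  have hCK : 1 ≤ C * K ^ 2 := by nlinarith
  have hρ1 : ρ ≤ 1 := by nlinarith
  have hv : ‖α - z0‖ ≤ 3 := (norm_sub_le _ _).trans (by linarith)
  obtain ⟨q0, q1, q2, hq, hqs⟩ := k3e2_bd_line D K hbd z0 (α - z0) (by linarith) (by linarith)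
  have hpt : ∀ s, k3bPt z0 α s = k3e2Ln z0 (α - z0) s := fun s => rfl
  have e0 : D.ev z0 = q0 := by
    have h1 := hq 0
    have h2 : k3e2Ln z0 (α - z0) 0 = z0 := by
      funext i
      simp [k3e2Ln]
    rw [h2] at h1
    rw [h1]
    unfold k3bQ
    ring
  have e1 : D.ev α = q0 + q1 + q2 := by
    have h1 := hq 1
    have h2 : k3e2Ln z0 (α - z0) 1 = α := by
      funext i
      simp [k3e2Ln]
    rw [h2] at h1
    rw [h1]
    unfold k3bQ
    ring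
  have hK4 : 1 / (4 * K) ≤ 1 / K := one_div_le_one_div_of_le hK0 (by linarith)
  have hKρ : 0 ≤ K ^ 2 * ρ := by positivity
  have h1 := H (4 * K) ρ (by linarith) hρ (by nlinarith) q0 q1 q2 hqs (by rw [← e0]; linarith) (by rw [← e1]; linarith)
  refine (measure_mono ?_).trans (h1.trans (ENNReal.ofReal_le_ofReal ?_))
  · rintro σ ⟨hσ, hns⟩
    refine ⟨hσ, ?_⟩
    by_contra hno
    push Not at hno
    apply hns
    intro s hs u hu
    rw [one_div_div] at hu ⊢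
    obtain ⟨X, hX⟩ : ∃ X : ℝ, X = ρ ^ 2 / (C * K ^ 2) := ⟨_, rfl⟩
    rw [← hX] at hu ⊢
    have hX0 : 0 ≤ X := by rw [hX]; positivity
    have hXe : X * (C * K ^ 2) = ρ ^ 2 := by rw [hX]; exact div_mul_cancel₀ _ (by positivity)
    have hX1 : X ≤ 1 := by
      rw [hX, div_le_one (by positivity)]
      nlinarith
    have h2 := hno s (Metric.self_subset_thickening hρ _ hs)
    rw [← hq s, ← hpt s] at h2
    have hc : Convex ℝ (Metric.closedBall (0 : ℂ) 2) := convex_closedBall 0 2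
    have m0 : (0 : ℂ) ∈ Metric.closedBall (0 : ℂ) 2 := by simp
    have mσ : σ ∈ Metric.closedBall (0 : ℂ) 2 := by simpa using hσ
    have m1 : (1 : ℂ) ∈ Metric.closedBall (0 : ℂ) 2 := by simp
    have hs2 : ‖s‖ ≤ 2 := by
      rcases hs with hs | hs
      · simpa using hc.segment_subset m0 mσ hs
      · simpa using hc.segment_subset mσ m1 hs
    have hp7 : ‖k3bPt z0 α s‖ ≤ 7 := by
      have e : k3bPt z0 α s = z0 + s • (α - z0) := by
        funext i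
        simp [k3bPt]
      rw [e]
      calc ‖z0 + s • (α - z0)‖ ≤ ‖z0‖ + ‖s‖ * ‖α - z0‖ := (norm_add_le _ _).trans (by rw [norm_smul])
        _ ≤ 1 + 2 * 3 := add_le_add hz0 (mul_le_mul hs2 hv (norm_nonneg _) (by norm_num))
        _ = 7 := by norm_num
    have h3 := k3e2_bd_lip D K hbd (k3bPt z0 α s) u hp7 (hu.trans hX1)
    have h4 : ‖D.ev (k3bPt z0 α s)‖ ≤ ‖D.ev (k3bPt z0 α s + u)‖ + ‖D.ev (k3bPt z0 α s + u) - D.ev (k3bPt z0 α s)‖ := by
      have := norm_sub_le (D.ev (k3bPt z0 α s + u)) (D.ev (k3bPt z0 α s + u) - D.ev (k3bPt z0 α s))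
      rwa [sub_sub_cancel] at this
    have h5 : 3 * K * ‖u‖ ≤ 3 * K * X := mul_le_mul_of_nonneg_left hu (by positivity)
    have h6 : 4 * K * X ≤ (ρ / 6) ^ 2 / (4 * K) := by
      rw [le_div_iff₀ (by positivity)]
      have h7 : 0 ≤ X * K ^ 2 := by positivity
      have h8 := mul_le_mul_of_nonneg_left hC576 h7
      nlinarith
    have h9 : X ≤ K * X := by nlinarith
    linarith
  · nlinarith

theorem k3e2_ev_cont (D : K3bQd n) : Continuous D.ev := by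
  unfold K3bQd.ev
  fun_prop

/-- **LEAF L-252-S3e2-M3** (measurability).  `s ∈ k3bPath 0 σ 1 ↔ ∃ t ∈ [0,1], s = t σ ∨ s = σ + t (1 - σ)`; the set is the intersection over `(t, u)` of the closed sets `{p | 1/A ≤ ‖D.ev (..)‖}` (`isClosed_iInter`, `isClosed_le continuous_const ..`). -/
theorem k3e2_safe_closed (D : K3bQd n) (A : ℝ) : IsClosed {p : (Fin n → ℝ) × (Fin n → ℝ) × ℂ | K3bSafe D (k3bC p.1) (k3bC p.2.1) p.2.2 A} := by
  have hpt : ∀ S : (Fin n → ℝ) × (Fin n → ℝ) × ℂ → ℂ, Continuous S → ∀ u : Fin n → ℂ,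
      IsClosed {p : (Fin n → ℝ) × (Fin n → ℝ) × ℂ | 1 / A ≤ ‖D.ev (k3bPt (k3bC p.1) (k3bC p.2.1) (S p) + u)‖} := by
    intro S hS u
    refine isClosed_le continuous_const ((k3e2_ev_cont D).comp ?_).norm
    refine Continuous.add ?_ continuous_const
    unfold k3bPt k3bC
    refine continuous_pi fun i => ?_
    fun_prop
  have e : {p : (Fin n → ℝ) × (Fin n → ℝ) × ℂ | K3bSafe D (k3bC p.1) (k3bC p.2.1) p.2.2 A}
      = ⋂ (t : ℝ) (_ : t ∈ Set.Icc (0 : ℝ) 1) (u : Fin n → ℂ) (_ : ‖u‖ ≤ 1 / A),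
        ({p : (Fin n → ℝ) × (Fin n → ℝ) × ℂ | 1 / A ≤ ‖D.ev (k3bPt (k3bC p.1) (k3bC p.2.1) ((1 - t) • (0 : ℂ) + t • p.2.2) + u)‖}
          ∩ {p : (Fin n → ℝ) × (Fin n → ℝ) × ℂ | 1 / A ≤ ‖D.ev (k3bPt (k3bC p.1) (k3bC p.2.1) ((1 - t) • p.2.2 + t • (1 : ℂ)) + u)‖}) := by
    ext p
    simp only [Set.mem_ofPred_eq, Set.mem_iInter, Set.mem_inter_iff]
    constructor
    · intro h t ht u hu
      refine ⟨h _ (Or.inl ?_) u hu, h _ (Or.inr ?_) u hu⟩
      · rw [segment_eq_image]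
        exact ⟨t, ht, rfl⟩
      · rw [segment_eq_image]
        exact ⟨t, ht, rfl⟩
    · intro h s hs u hu
      rcases hs with hs | hs
      · rw [segment_eq_image] at hs
        obtain ⟨t, ht, rfl⟩ := hs
        exact (h t ht u hu).1
      · rw [segment_eq_image] at hs
        obtain ⟨t, ht, rfl⟩ := hs
        exact (h t ht u hu).2
  rw [e]
  refine isClosed_iInter fun t => isClosed_iInter fun _ => isClosed_iInter fun u => isClosed_iInter fun _ => IsClosed.inter ?_ ?_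
  · exact hpt (fun p => (1 - t) • (0 : ℂ) + t • p.2.2) (by fun_prop) u
  · exact hpt (fun p => (1 - t) • p.2.2 + t • (1 : ℂ)) (by fun_prop) u

theorem k3e2_cube_eq_Icc (n : ℕ) : k3bCube n 1 = Set.Icc (fun _ => (-1 : ℝ)) (fun _ => (1 : ℝ)) := by
  ext x
  simp only [k3bCube, Set.mem_ofPred_eq, Set.mem_Icc, Pi.le_def, abs_le]
  exact forall_and

theorem k3e2_cube_vol (n : ℕ) : volume (k3bCube n 1) = ENNReal.ofReal (2 ^ n) := by
  rw [k3e2_cube_eq_Icc, Real.volume_Icc_pi]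
  simp only [Finset.prod_const, Finset.card_univ, Fintype.card_fin]
  rw [← ENNReal.ofReal_pow (by norm_num)]
  norm_num

theorem k3e2_C_norm (x : Fin n → ℝ) (hx : x ∈ k3bCube n 1) : ‖k3bC x‖ ≤ 1 := by
  rw [pi_norm_le_iff_of_nonneg zero_le_one]
  intro i
  unfold k3bC
  rw [Complex.norm_real, Real.norm_eq_abs]
  exact hx i

theorem k3e2_disc_vol : volume {σ : ℂ | ‖σ‖ ≤ 2} ≤ ENNReal.ofReal 16 := by
  have e : {σ : ℂ | ‖σ‖ ≤ 2} = Metric.closedBall (0 : ℂ) 2 := by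
    ext σ
    simp
  rw [e, Complex.volume_closedBall, ← ENNReal.ofReal_pow (by norm_num), ← ENNReal.ofReal_coe_nnreal (p := NNReal.pi),
    NNReal.coe_real_pi, ← ENNReal.ofReal_mul (by norm_num)]
  refine ENNReal.ofReal_le_ofReal ?_
  have := Real.pi_le_four
  linarith

/-- **LEAF L-252-S3e2-M4: random anchor and detour** (03 l.1328-1375).  M1 with `κ = 1/K`, `ε = 1/(K T^(2n))`: bad `a` have volume `≤ C/T`.  For a good `a`: M2 with `K₁ = K T^(2n)`, `ρ = 1/(C K₁² T)`.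
The bad set is measurable (M3, `x0` fixed), `Measure.prod_apply` + `lintegral` over `a` split into good and bad `a`; `volume (cube) = 2^n`, `volume (disc) = 4π`; `k3e2_safe_mono` to reach the common slack. -/
theorem k3e2_anchor_prob (n : ℕ) (hn : 1 ≤ n) : ∃ C : ℝ, 1 ≤ C ∧ ∀ (K T : ℝ), 1 ≤ K → 1 ≤ T → ∀ (D : K3bQd n) (x0 : Fin n → ℝ), x0 ∈ k3bCube n 1 → K3e2Bd D K → 1 / K ≤ |D.evR x0| →
    volume {p : (Fin n → ℝ) × ℂ | p.1 ∈ k3bCube n 1 ∧ ‖p.2‖ ≤ 2 ∧ ¬ K3bSafe D (k3bC x0) (k3bC p.1) p.2 (C * (K * T) ^ C)} ≤ ENNReal.ofReal (C / T) := by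
  obtain ⟨C1, hC1, H1⟩ := k3e2_sublevel n hn
  obtain ⟨C2, hC2, H2⟩ := k3e2_safe_sigma n
  have h2n : (1 : ℝ) ≤ 2 ^ n := one_le_pow₀ (by norm_num)
  have hC23 : 1 ≤ C2 ^ 3 := one_le_pow₀ hC2
  refine ⟨C2 ^ 3 + ((12 * n + 2 : ℕ) : ℝ) + 16 * C1 + 2 ^ n, by
    have : (0 : ℝ) ≤ ((12 * n + 2 : ℕ) : ℝ) := Nat.cast_nonneg _
    linarith, ?_⟩
  intro K T hK hT D x0 hx0 hbd hlow
  obtain ⟨C, hCdef⟩ : ∃ C : ℝ, C = C2 ^ 3 + ((12 * n + 2 : ℕ) : ℝ) + 16 * C1 + 2 ^ n := ⟨_, rfl⟩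
  rw [← hCdef]
  have hm0 : (0 : ℝ) ≤ ((12 * n + 2 : ℕ) : ℝ) := Nat.cast_nonneg _
  have hK0 : 0 < K := by linarith
  have hT0 : 0 < T := by linarith
  have hKT : 1 ≤ K * T := by nlinarith
  obtain ⟨A, hA⟩ : ∃ A : ℝ, A = C * (K * T) ^ C := ⟨_, rfl⟩
  rw [← hA]
  -- the parameters
  obtain ⟨K1, hK1⟩ : ∃ K1 : ℝ, K1 = K * T ^ (2 * n) := ⟨_, rfl⟩
  have hTn : 1 ≤ T ^ (2 * n) := one_le_pow₀ hT
  have hKK1 : K ≤ K1 := by rw [hK1]; nlinarith
  have hK11 : 1 ≤ K1 := hK.trans hKK1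
  have hK10 : 0 < K1 := by linarith
  obtain ⟨ρ, hρ⟩ : ∃ ρ : ℝ, ρ = 1 / (C2 * K1 ^ 2 * T) := ⟨_, rfl⟩
  have hC20 : 0 < C2 := by linarith
  have hρ0 : 0 < ρ := by rw [hρ]; positivity
  have hρT : C2 * K1 ^ 2 * ρ = 1 / T := by
    rw [hρ]; field_simp
  have hT1 : 1 / T ≤ 1 := by rw [div_le_one hT0]; exact hT
  obtain ⟨A2, hA2⟩ : ∃ A2 : ℝ, A2 = C2 * K1 ^ 2 / ρ ^ 2 := ⟨_, rfl⟩
  have hA20 : 0 < A2 := by rw [hA2]; positivity
  have hA2A : A2 ≤ A := by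
    have e1 : A2 = C2 ^ 3 * (K ^ 6 * T ^ (12 * n + 2)) := by
      rw [hA2, hρ, hK1]
      have : T ^ (12 * n + 2) = (T ^ (2 * n)) ^ 6 * T ^ 2 := by
        rw [← pow_mul, ← pow_add]
        congr 1
        ring
      rw [this]
      field_simp
    have e2 : K ^ 6 * T ^ (12 * n + 2) ≤ (K * T) ^ (12 * n + 2) := by
      rw [mul_pow]
      refine mul_le_mul_of_nonneg_right ?_ (by positivity)
      exact pow_le_pow_right₀ hK (by omega)
    have e3 : (K * T) ^ (12 * n + 2) ≤ (K * T) ^ C := by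
      rw [← Real.rpow_natCast]
      refine Real.rpow_le_rpow_of_exponent_le hKT ?_
      rw [hCdef]
      linarith
    rw [e1, hA]
    refine mul_le_mul ?_ (e2.trans e3) (by positivity) ?_
    · rw [hCdef]; linarith
    · rw [hCdef]; linarith
  obtain ⟨ε, hε⟩ : ∃ ε : ℝ, ε = 1 / K1 := ⟨_, rfl⟩
  have hε0 : 0 < ε := by rw [hε]; positivity
  have hz0 : ‖k3bC x0‖ ≤ 1 := k3e2_C_norm x0 hx0
  have hev : ∀ x : Fin n → ℝ, ‖D.ev (k3bC x)‖ = |D.evR x| := by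
    intro x
    rw [k3e2_qd_real, Complex.norm_real, Real.norm_eq_abs]
  -- the bad anchors
  obtain ⟨bad, hbad⟩ : ∃ bad : Set (Fin n → ℝ), bad = {x : Fin n → ℝ | x ∈ k3bCube n 1 ∧ |D.evR x| ≤ ε} := ⟨_, rfl⟩
  have hbadv : volume bad ≤ ENNReal.ofReal (C1 / T) := by
    have h1 := H1 D (1 / K) ε (by positivity) hε0.le ⟨k3bC x0, by linarith, by rw [hev]; exact hlow⟩
    rw [← hbad] at h1
    have e1 : ε / (1 / K) = (1 / T) ^ (2 * n) := by
      rw [hε, hK1, one_div_pow]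
      field_simp
    have e2 : ((1 / T) ^ (2 * n)) ^ (1 / (2 * (n : ℝ))) = 1 / T := by
      have : 1 / (2 * (n : ℝ)) = (((2 * n : ℕ) : ℝ))⁻¹ := by
        push_cast
        rw [one_div]
      rw [this]
      exact Real.pow_rpow_inv_natCast (by positivity) (by omega)
    rw [e1, e2] at h1
    rwa [mul_one_div] at h1
  -- the good anchors
  have hgood : ∀ a ∈ k3bCube n 1, a ∉ bad →
      volume {σ : ℂ | ‖σ‖ ≤ 2 ∧ ¬ K3bSafe D (k3bC x0) (k3bC a) σ A} ≤ ENNReal.ofReal (1 / T) := by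
    intro a ha hab
    have h1 : ε < |D.evR a| := by
      by_contra hno
      exact hab (by rw [hbad]; exact ⟨ha, not_lt.1 hno⟩)
    have h2 := H2 K1 ρ hK11 hρ0 (by rw [hρT]; exact hT1) D (k3bC x0) (k3bC a) hz0
      ((k3e2_C_norm a ha).trans (by norm_num)) (k3e2_bd_mono D K K1 hKK1 hbd)
      (by
        rw [hev]
        exact (one_div_le_one_div_of_le hK0 hKK1).trans hlow)
      (by
        rw [hev, ← hε]
        exact h1.le)
    rw [hρT, ← hA2] at h2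
    refine (measure_mono ?_).trans h2
    rintro σ ⟨hσ, hns⟩
    exact ⟨hσ, fun hs => hns (k3e2_safe_mono D _ _ σ A2 A hA20 hA2A hs)⟩
  -- measurability
  have hcm : MeasurableSet (k3bCube n 1) := by
    rw [k3e2_cube_eq_Icc]
    exact measurableSet_Icc
  obtain ⟨B, hB⟩ : ∃ B : Set ((Fin n → ℝ) × ℂ),
      B = {p : (Fin n → ℝ) × ℂ | p.1 ∈ k3bCube n 1 ∧ ‖p.2‖ ≤ 2 ∧ ¬ K3bSafe D (k3bC x0) (k3bC p.1) p.2 A} := ⟨_, rfl⟩
  rw [← hB]
  have hBm : MeasurableSet B := by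
    have h1 : IsClosed {p : (Fin n → ℝ) × ℂ | K3bSafe D (k3bC x0) (k3bC p.1) p.2 A} :=
      (k3e2_safe_closed D A).preimage (f := fun p : (Fin n → ℝ) × ℂ => (x0, p.1, p.2)) (by fun_prop)
    have h2 : MeasurableSet {p : (Fin n → ℝ) × ℂ | ‖p.2‖ ≤ 2} :=
      measurableSet_le measurable_snd.norm measurable_const
    rw [hB]
    exact (measurable_fst hcm).inter (h2.inter h1.measurableSet.compl)
  rw [Measure.volume_eq_prod, Measure.prod_apply hBm]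
  have hpt : ∀ a, volume (Prod.mk a ⁻¹' B) ≤ bad.indicator (fun _ => ENNReal.ofReal 16) a
      + (k3bCube n 1).indicator (fun _ => ENNReal.ofReal (1 / T)) a := by
    intro a
    by_cases ha : a ∈ k3bCube n 1
    · rw [Set.indicator_of_mem ha]
      by_cases hab : a ∈ bad
      · rw [Set.indicator_of_mem hab]
        refine le_add_right ((measure_mono ?_).trans k3e2_disc_vol)
        intro σ hσ
        rw [hB] at hσ
        exact hσ.2.1
      · refine le_add_left ((measure_mono ?_).trans (hgood a ha hab))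
        intro σ hσ
        rw [hB] at hσ
        exact hσ.2
    · have : Prod.mk a ⁻¹' B = ∅ := by
        ext σ
        rw [hB]
        simp only [Set.mem_preimage, Set.mem_ofPred_eq, Set.mem_empty_iff_false, iff_false]
        exact fun h => ha h.1
      rw [this, measure_empty]
      exact zero_le
  calc ∫⁻ a, volume (Prod.mk a ⁻¹' B) ≤ ∫⁻ a, (bad.indicator (fun _ => ENNReal.ofReal 16) a
        + (k3bCube n 1).indicator (fun _ => ENNReal.ofReal (1 / T)) a) := lintegral_mono hpt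
    _ = (∫⁻ a, bad.indicator (fun _ => ENNReal.ofReal 16) a)
        + ∫⁻ a, (k3bCube n 1).indicator (fun _ => ENNReal.ofReal (1 / T)) a :=
      lintegral_add_right _ (measurable_const.indicator hcm)
    _ ≤ ENNReal.ofReal 16 * ENNReal.ofReal (C1 / T) + ENNReal.ofReal (1 / T) * ENNReal.ofReal (2 ^ n) := by
      refine add_le_add ?_ ?_
      · refine (lintegral_indicator_le _ _).trans ?_
        rw [setLIntegral_const]
        exact mul_le_mul' le_rfl hbadv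
      · rw [lintegral_indicator_const hcm, k3e2_cube_vol]
    _ = ENNReal.ofReal ((16 * C1 + 2 ^ n) / T) := by
      rw [← ENNReal.ofReal_mul (by norm_num), ← ENNReal.ofReal_mul (by positivity),
        ← ENNReal.ofReal_add (by positivity) (by positivity)]
      congr 1
      ring
    _ ≤ ENNReal.ofReal (C / T) := by
      refine ENNReal.ofReal_le_ofReal ?_
      refine div_le_div_of_nonneg_right ?_ hT0.le
      rw [hCdef]
      linarith

/-- **M4b** (chief's ANCHOR: source discriminant safe AND witness discriminant bounded below near the anchor).  Union bound of two instances of M4 (`k3e2_safe_low`, `k3e2_safe_mono`; `C = 2 C₀`). -/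
theorem k3e2_anchor_pair (n : ℕ) (hn : 1 ≤ n) : ∃ C : ℝ, 1 ≤ C ∧ ∀ (K T : ℝ), 1 ≤ K → 1 ≤ T → ∀ (D D' : K3bQd n) (x0 : Fin n → ℝ), x0 ∈ k3bCube n 1 → K3e2Bd D K → K3e2Bd D' K →
    1 / K ≤ |D.evR x0| → 1 / K ≤ |D'.evR x0| →
    volume {p : (Fin n → ℝ) × ℂ | p.1 ∈ k3bCube n 1 ∧ ‖p.2‖ ≤ 2 ∧ ¬ (K3bSafe D (k3bC x0) (k3bC p.1) p.2 (C * (K * T) ^ C) ∧ K3e2Low D' (k3bC p.1) (C * (K * T) ^ C))} ≤ ENNReal.ofReal (C / T) := by
  obtain ⟨C0, hC0, H⟩ := k3e2_anchor_prob n hn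
  refine ⟨2 * C0, by linarith, ?_⟩
  intro K T hK hT D D' x0 hx0 hbd hbd' hl hl'
  have hT0 : 0 < T := by linarith
  have hKT : 1 ≤ K * T := by nlinarith
  have hKT0 : 0 < K * T := by linarith
  obtain ⟨A0, hA0⟩ : ∃ A0 : ℝ, A0 = C0 * (K * T) ^ C0 := ⟨_, rfl⟩
  obtain ⟨A, hA⟩ : ∃ A : ℝ, A = 2 * C0 * (K * T) ^ (2 * C0) := ⟨_, rfl⟩
  rw [← hA]
  have hp0 : 0 < (K * T) ^ C0 := Real.rpow_pos_of_pos hKT0 _
  have hA00 : 0 < A0 := by rw [hA0]; positivity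
  have hAA : A0 ≤ A := by
    rw [hA0, hA]
    refine mul_le_mul (by linarith) ?_ hp0.le (by linarith)
    exact Real.rpow_le_rpow_of_exponent_le hKT (by linarith)
  have h1 := H K T hK hT D x0 hx0 hbd hl
  have h2 := H K T hK hT D' x0 hx0 hbd' hl'
  rw [← hA0] at h1 h2
  refine (measure_mono ?_).trans ((measure_union_le _ _).trans ((add_le_add h1 h2).trans (le_of_eq ?_)))
  · rintro p ⟨hp1, hp2, hp3⟩
    by_cases hs : K3bSafe D (k3bC x0) (k3bC p.1) p.2 A0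
    · right
      refine ⟨hp1, hp2, fun hs' => hp3 ⟨k3e2_safe_mono D _ _ _ A0 A hA00 hAA hs, ?_⟩⟩
      exact (k3e2_safe_low D' _ _ _ A (k3e2_safe_mono D' _ _ _ A0 A hA00 hAA hs')).2
    · left
      exact ⟨hp1, hp2, hs⟩
  · rw [← ENNReal.ofReal_add (by positivity) (by positivity)]
    congr 1
    ring

/-- **LEAF L-252-S3e2-M5** (averaging against the pair law, 03 l.1372-1374).  Tonelli (`Measure.prod_apply`, `Measure.prod_apply_symm` / `lintegral_prod_swap`) and `exists_setLAverage_le`. -/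
theorem k3e2_average {Ω Θ : Type} [MeasurableSpace Ω] [MeasurableSpace Θ] (μ : Measure Ω) [IsFiniteMeasure μ] (ν : Measure Θ) [SFinite ν] (S : Set Θ) (hS : MeasurableSet S)
    (hS0 : ν S ≠ 0) (hS1 : ν S ≠ ⊤) (B : Set (Ω × Θ)) (hB : MeasurableSet B) (ε : ℝ≥0∞) (h : ∀ ω, ν {θ | θ ∈ S ∧ (ω, θ) ∈ B} ≤ ε) :
    ∃ θ ∈ S, μ {ω | (ω, θ) ∈ B} ≤ ε * μ Set.univ / ν S := by
  have hfm : Measurable fun θ => μ {ω | (ω, θ) ∈ B} := measurable_measure_prodMk_right hB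
  obtain ⟨θ, hθS, hθ⟩ := exists_le_setLAverage (f := fun θ => μ {ω | (ω, θ) ∈ B}) hS0 hS1 hfm.aemeasurable
  refine ⟨θ, hθS, hθ.trans ?_⟩
  rw [setLAverage_eq]
  refine ENNReal.div_le_div_right ?_ _
  have hB' : MeasurableSet (B ∩ (Set.univ ×ˢ S)) := hB.inter (MeasurableSet.univ.prod hS)
  have h1 : ∫⁻ θ in S, μ {ω | (ω, θ) ∈ B} ∂ν = (μ.prod ν) (B ∩ (Set.univ ×ˢ S)) := by
    rw [Measure.prod_apply_symm hB', ← lintegral_indicator hS]
    refine lintegral_congr fun θ => ?_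
    by_cases hθ' : θ ∈ S
    · rw [Set.indicator_of_mem hθ']
      congr 1
      ext ω
      simp [hθ']
    · rw [Set.indicator_of_notMem hθ']
      symm
      convert measure_empty (μ := μ)
      ext ω
      simp [hθ']
  rw [h1, Measure.prod_apply hB']
  calc ∫⁻ ω, ν (Prod.mk ω ⁻¹' (B ∩ (Set.univ ×ˢ S))) ∂μ ≤ ∫⁻ _ω, ε ∂μ := by
        refine lintegral_mono fun ω => le_trans (le_of_eq ?_) (h ω)
        congr 1
        ext θ
        simp [and_comm]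
    _ = ε * μ Set.univ := lintegral_const _

theorem k3e2_cube_meas (n : ℕ) (R : ℝ) : MeasurableSet (k3bCube n R) := by
  have e : k3bCube n R = ⋂ i, {x : Fin n → ℝ | |x i| ≤ R} := by
    ext x
    simp [k3bCube]
  rw [e]
  exact MeasurableSet.iInter fun i => measurableSet_le (measurable_pi_apply i).abs measurable_const

/-- **LEAF L-252-S3e2-M6: the charge for the lower bound of the representative discriminant** (03 (3.28), l.1510-1557).  `J` = source labels of one world and block (`card ≤ K₀ N^e / n_Q`), `μ j` = the pair law of the entry pushed to `z0` (density `≤ ϱ = n_Q N^{C₁ e}`),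
`S j` = the representatives of the `≤ m = 2^(11^n)` own bins of the label.  Union bound + M1 with `κ = 1/A`. -/
theorem k3e2_disc_charge (n : ℕ) (hn : 1 ≤ n) : ∃ C : ℝ, 1 ≤ C ∧ ∀ (A ε ϱ : ℝ), 1 ≤ A → 0 ≤ ε → 0 ≤ ϱ → ∀ α : Fin n → ℂ, ‖α‖ ≤ 2 → ∀ (ι J : Type) [Fintype J] (Dh : ι → K3bQd n),
    (∀ i, 1 / A ≤ ‖(Dh i).ev α‖) → ∀ (S : J → Finset ι) (m : ℕ), (∀ j, (S j).card ≤ m) → ∀ μ : J → Measure (Fin n → ℝ), (∀ j, μ j ≤ ENNReal.ofReal ϱ • (volume.restrict (k3bCube n 1))) →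
    ∑ j, μ j {x | ∃ i ∈ S j, |(Dh i).evR x| ≤ ε} ≤ ENNReal.ofReal (C * (Fintype.card J : ℝ) * (m : ℝ) * ϱ * (A * ε) ^ (1 / (2 * (n : ℝ)))) := by
  obtain ⟨C, hC, H⟩ := k3e2_sublevel n hn
  refine ⟨C, hC, fun A ε ϱ hA hε hϱ α hα ι J _ Dh hDh S m hS μ hμ => ?_⟩
  have hA0 : 0 < A := by linarith
  obtain ⟨b, hb⟩ : ∃ b : ℝ, b = C * (A * ε) ^ (1 / (2 * (n : ℝ))) := ⟨_, rfl⟩
  have hb0 : 0 ≤ b := by rw [hb]; positivity
  have h1 : ∀ i, volume {x : Fin n → ℝ | x ∈ k3bCube n 1 ∧ |(Dh i).evR x| ≤ ε} ≤ ENNReal.ofReal b := by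
    intro i
    have h2 := H (Dh i) (1 / A) ε (by positivity) hε ⟨α, hα, hDh i⟩
    have e : ε / (1 / A) = A * ε := by
      field_simp
    rwa [e, ← hb] at h2
  have h3 : ∀ j, μ j {x | ∃ i ∈ S j, |(Dh i).evR x| ≤ ε} ≤ ENNReal.ofReal (m * ϱ * b) := by
    intro j
    refine (hμ j _).trans ?_
    rw [Measure.smul_apply, smul_eq_mul, Measure.restrict_apply' (k3e2_cube_meas n 1)]
    have h4 : {x | ∃ i ∈ S j, |(Dh i).evR x| ≤ ε} ∩ k3bCube n 1 ⊆ ⋃ i ∈ S j, {x : Fin n → ℝ | x ∈ k3bCube n 1 ∧ |(Dh i).evR x| ≤ ε} := by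
      rintro x ⟨⟨i, hi, hx⟩, hxc⟩
      exact Set.mem_biUnion hi ⟨hxc, hx⟩
    have h5 : volume ({x | ∃ i ∈ S j, |(Dh i).evR x| ≤ ε} ∩ k3bCube n 1) ≤ ENNReal.ofReal (m * b) := by
      calc volume ({x | ∃ i ∈ S j, |(Dh i).evR x| ≤ ε} ∩ k3bCube n 1)
          ≤ ∑ i ∈ S j, volume {x : Fin n → ℝ | x ∈ k3bCube n 1 ∧ |(Dh i).evR x| ≤ ε} :=
            (measure_mono h4).trans (measure_biUnion_finset_le _ _)
        _ ≤ ∑ _i ∈ S j, ENNReal.ofReal b := Finset.sum_le_sum fun i _ => h1 i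
        _ = ((S j).card : ℝ≥0∞) * ENNReal.ofReal b := by rw [Finset.sum_const, nsmul_eq_mul]
        _ ≤ (m : ℝ≥0∞) * ENNReal.ofReal b := by
            gcongr
            exact hS j
        _ = _ := by rw [ENNReal.ofReal_mul (Nat.cast_nonneg _), ENNReal.ofReal_natCast]
    calc ENNReal.ofReal ϱ * volume ({x | ∃ i ∈ S j, |(Dh i).evR x| ≤ ε} ∩ k3bCube n 1) ≤ ENNReal.ofReal ϱ * ENNReal.ofReal (m * b) := by gcongr
      _ = _ := by
          rw [← ENNReal.ofReal_mul hϱ]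
          congr 1
          ring
  calc ∑ j, μ j {x | ∃ i ∈ S j, |(Dh i).evR x| ≤ ε} ≤ ∑ _j : J, ENNReal.ofReal (m * ϱ * b) := Finset.sum_le_sum fun j _ => h3 j
    _ = (Fintype.card J : ℝ≥0∞) * ENNReal.ofReal (m * ϱ * b) := by rw [Finset.sum_const, nsmul_eq_mul, Finset.card_univ]
    _ = _ := by
        rw [← ENNReal.ofReal_natCast, ← ENNReal.ofReal_mul (Nat.cast_nonneg _), hb]
        congr 1
        ring

end

end Claimed.Agent.R252
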