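import Claimed.Agent.R252.S3e2.Transfer
import Claimed.Agent.R252.S3e2.Meas

/-!
# ROW 252 (S0492), unit S3e2 (03-comparison.tex l.1318-1560, L3.5 terminal time extension, part 2: COMMON ANCHORS, BINS, REPRESENTATIVE EQUATIONS)      CONTRACT v3 (sub-architect helper133, chief helper70)   -- KEEP

PAPER-FREE.  Files: `S3e2/Alg` (definitions, algebra, bins), `S3e2/Transfer` (branch, transfer), `S3e2/Meas` (measure statements), this file (the chain for one pair, EXITS).  Imports only `S3b/Defs` (+ `S3b/ContContract`).  Prefix `k3e2_`, `K3e2`, `k3e2`.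
The `sorry`s are the leaves `L-252-S3e2-*`.  ONE scale; slacks: `A₀` (early: own test of the source, speed, curvature cutoff), `A ≥ 2` (safety constant `A_s` of the chief's design note `origin/helper70:notes/R252/s3b_design.md`), `δ > 0` the terminal thickness;
losses are `C * X ^ C`, `C = C (n)`;  ALL RADII ARE EXPLICIT.   v2 follows D1-D11 of the design note.

## The route (deviations from the paper, all of them simplifications)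
(R1) ANCHORS ARE REAL: `α = k3bC a`, `a` uniform in the real cube; only the DETOUR `σ` (`‖σ‖ ≤ 2`) is complex (the line `z0 + s (α - z0)` is a complexified real line).  Then the sublevel estimates at the anchor and in the real box (03 l.1349, l.1525)
     are ONE real statement `k3e2_sublevel`, and "norm comparison anchor → real box" is void.   The deterministic statements allow any complex `α`, `‖α‖ ≤ 2`, and any complex centre `z0`, `‖z0‖ ≤ 1` (D7: `z0 = k3bC u`, `u` the net point).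
(R2) = D6.  Only the SOURCE branch `f` (a continuous root of `P = P~_{A,D}` on the tube) is continued; every other equation `Q` (`P~_{A',D}`, the representative `P^`, `Q_w = k3e2Dw Q`) enters through the EVALUATION `z ↦ Q (z, f z)`.
     On a complex line `dsc P * Q (z, f z) = g0 + g1 * P_w (z, f z)`, `deg ≤ 4` (`k3e2_class`): the one-radical class of `k3b_cont 4` (`11` nodes).  Only `dsc P` has to be safe on the path; of the other equations only `|dsc| ≥ 1/A` near the anchor is used.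
(R3) = D4, D8.  Jets and norms are replaced by VALUES ON TENSOR GRIDS `k3e2Node c h κ = c + h (κ - 5)`, `κ ∈ {0..10}^n`, at the source (`c = z0`, spacing `hs`) and at the anchor (`c = α`, spacing `hn`).  The bin tuple of a source is `k3e2Tup α hn h f`
     (`k3e2Bin`: real and imaginary parts, spacing `h = δ E^{C_b}`).  A grid controls the polydisc of radius `1/(8A)` (`k3e2_grid_ball`).
(R4) = D9.  NO BRANCH OF THE OTHER EQUATIONS: "`f` is near the sheet of `Q`" means: at each point there is SOME root of `Q (z, ·)` near `f z` (`k3e2_near_root`: distance `≤ 2 |Q (z, f z)| / √|dsc Q|`, no smallness condition).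
     Lists: `≤ 2` roots per node, `9` neighbouring bins: `≤ 18^(11^n)` tuples per `(A', D)` (`k3e2_list_card`), `≤ 2^(11^n)` own tuples per `(A, D)` (`k3e2_own_card`).
(R5) `K3e2Bd D A` (`|D| ≤ A` on the polydisc of radius `8`) replaces coefficient bounds.

## The chain for one retained pair
 source grid --Taylor, `k3e2_grid_ball`--> source polydisc `1/(8A)` --`k3e2_fwd`--> anchor ball `1/(6A)` --`k3e2_near_root`-->  `k3e2_match_anchor` (chief's FWD) ==> the source tuple is in `k3e2List P' ..` (`k3e2_pair_list`)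
 same tuple as an eligible `P^` --Taylor--> anchor grid --`k3e2_grid_ball`--> anchor polydisc --`k3e2_bwd`--> source ball `1/(6A)` :   `k3e2_rep_source`   (chief's REP; 03 (3.26) returned)
 real segment : `k3e2_affine_persist`, `k3e2_seg` (same branch by connectedness), Taylor, `k3e2_extrap` :   `k3e2_rep_upper`   (SEG + EXTRAP; 03 (3.27));    all together: `k3e2_exit`.
## Measure statements (`S3e2/Meas.lean`)
 `k3e2_sublevel`, `k3e2_safe_sigma`, `k3e2_anchor_prob` (bad `(a, σ)` have volume `≤ C/T`), `k3e2_safe_closed` (measurability), `k3e2_average` (choice of `(a_D, σ_D)` against the pair law), `k3e2_disc_charge` (03 (3.28), l.1510-1557).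
-/

set_option autoImplicit false

namespace Claimed.Agent.R252

open MeasureTheory Polynomial
open scoped ENNReal BigOperators

noncomputable section

variable {n : ℕ}

/-! ## 6. The chain for one retained pair -/

/-- arithmetic of the constants of C1, C2 -/
theorem k3e2_c12_arith (C2 C5 A y : ℝ) (h2 : 1 ≤ C2) (h5 : 1 ≤ C5) (hA : 2 ≤ A) (hy : 40 * A ≤ y) :
    4 * A ^ 2 * (C2 * (A / (1 / (8 * A))) ^ C2 * (C5 * y ^ C5)) ≤ (4 * C2 * C5 + 2 + 2 * C2 + C5) * y ^ (4 * C2 * C5 + 2 + 2 * C2 + C5) := by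
  have hA0 : (0 : ℝ) < A := by linarith
  have hy0 : (0 : ℝ) < y := by linarith
  have hy1 : (1 : ℝ) ≤ y := by linarith
  have e1 : A / (1 / (8 * A)) = 8 * A ^ 2 := by field_simp
  have y2 : y ^ (2 : ℝ) = y ^ 2 := by norm_cast
  have p0 : 8 * A ^ 2 ≤ y ^ (2 : ℝ) := by
    rw [y2]
    nlinarith
  have p1 : (8 * A ^ 2) ^ C2 ≤ y ^ (2 * C2) := by
    calc (8 * A ^ 2) ^ C2 ≤ (y ^ (2 : ℝ)) ^ C2 := Real.rpow_le_rpow (by positivity) p0 (by linarith)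
      _ = y ^ (2 * C2) := by rw [← Real.rpow_mul hy0.le]
  have p2 : A ^ 2 ≤ y ^ (2 : ℝ) := le_trans (by nlinarith [sq_nonneg A]) p0
  have p3 : y ^ (2 : ℝ) * (y ^ (2 * C2) * y ^ C5) = y ^ (2 + 2 * C2 + C5) := by
    rw [← Real.rpow_add hy0, ← Real.rpow_add hy0]
    congr 1
    ring
  have p4 : y ^ (2 + 2 * C2 + C5) ≤ y ^ (4 * C2 * C5 + 2 + 2 * C2 + C5) := by
    refine Real.rpow_le_rpow_of_exponent_le hy1 ?_
    have : 0 ≤ C2 * C5 := by positivity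
    linarith
  have hc : 0 ≤ 4 * C2 * C5 := by positivity
  rw [e1]
  calc 4 * A ^ 2 * (C2 * (8 * A ^ 2) ^ C2 * (C5 * y ^ C5)) = 4 * C2 * C5 * (A ^ 2 * ((8 * A ^ 2) ^ C2 * y ^ C5)) := by ring
    _ ≤ 4 * C2 * C5 * (y ^ (2 : ℝ) * (y ^ (2 * C2) * y ^ C5)) := by
        refine mul_le_mul_of_nonneg_left ?_ hc
        refine mul_le_mul p2 ?_ (by positivity) (by positivity)
        exact mul_le_mul_of_nonneg_right p1 (by positivity)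
    _ ≤ 4 * C2 * C5 * y ^ (4 * C2 * C5 + 2 + 2 * C2 + C5) := by
        rw [p3]
        exact mul_le_mul_of_nonneg_left p4 hc
    _ ≤ _ := by
        refine mul_le_mul_of_nonneg_right ?_ (by positivity)
        linarith

/-- the ball about the source centre lies in the tube -/
theorem k3e2_ball_tube0 (z0 α : Fin n → ℂ) (σ : ℂ) (ρ : ℝ) : Metric.ball z0 ρ ⊆ k3bTubeN z0 α σ ρ := by
  intro z hz
  refine ⟨0, Or.inl (left_mem_segment ℝ 0 σ), ?_⟩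
  have e : k3bPt z0 α 0 = z0 := by
    funext i
    simp [k3bPt]
  rw [e]
  rwa [Metric.mem_ball, dist_eq_norm] at hz

/-- the ball about the anchor lies in the tube -/
theorem k3e2_ball_tube1 (z0 α : Fin n → ℂ) (σ : ℂ) (ρ : ℝ) : Metric.ball α ρ ⊆ k3bTubeN z0 α σ ρ := by
  intro z hz
  refine ⟨1, Or.inr (right_mem_segment ℝ σ 1), ?_⟩
  have e : k3bPt z0 α 1 = α := by
    funext i
    simp [k3bPt]
  rw [e]
  rwa [Metric.mem_ball, dist_eq_norm] at hz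

theorem k3e2_root_mono (P : K3bEq n) (Ω Ω' : Set (Fin n → ℂ)) (h : Ω' ⊆ Ω) (f : (Fin n → ℂ) → ℂ) (hf : K3e2Root P Ω f) : K3e2Root P Ω' f :=
  ⟨hf.1.mono h, fun z hz => hf.2 z (h hz)⟩

/-- evaluations at the nodes of a grid from nearby roots -/
theorem k3e2_node_eval (A Λ δ hg : ℝ) (hA : 2 ≤ A) (hΛ : 1 ≤ Λ) (hδ : 0 < δ) (hg0 : 0 ≤ hg) (hg1 : hg ≤ 1 / (40 * A)) (Q : K3bEq n) (c : Fin n → ℂ) (hc : ‖c‖ ≤ 2) (hbd : K3e2Bd Q.dsc A)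
    (hcv : |Q.c| ≤ 1 / δ) (f : (Fin n → ℂ) → ℂ) (κ : Fin n → Fin 11) (h : ∃ ω : ℂ, Q.ev (k3e2Node c hg κ) ω = 0 ∧ ‖f (k3e2Node c hg κ) - ω‖ ≤ δ * Λ) :
    ‖Q.ev (k3e2Node c hg κ) (f (k3e2Node c hg κ))‖ ≤ δ * (2 * A * Λ ^ 2) ∧ ‖Q.dw (k3e2Node c hg κ) (f (k3e2Node c hg κ))‖ ≤ 2 * A * Λ := by
  obtain ⟨ω, hω, hcl⟩ := h
  have hA0 : (0 : ℝ) < A := by linarith
  have hn8 : ‖k3e2Node c hg κ‖ ≤ 8 := by
    have h1 := k3e2_node_dist c hg hg0 κ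
    have h2 : ‖k3e2Node c hg κ‖ ≤ ‖k3e2Node c hg κ - c‖ + ‖c‖ := by
      have := norm_add_le (k3e2Node c hg κ - c) c
      rwa [sub_add_cancel] at this
    have h3 : 1 / (40 * A) ≤ 1 := by
      rw [div_le_one (by positivity)]
      linarith
    linarith
  have hB : ‖Q.dsc.ev (k3e2Node c hg κ)‖ ≤ A ^ 2 := (hbd _ hn8).trans (by nlinarith)
  obtain ⟨e1, e2⟩ := k3e2_eval_near Q (k3e2Node c hg κ) (f (k3e2Node c hg κ)) ω A (δ * Λ) (1 / δ) hω hB hA0.le hcl hcv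
  constructor
  · refine e1.trans ?_
    have : A * (δ * Λ) + 1 / δ / 2 * (δ * Λ) ^ 2 = δ * (A * Λ + Λ ^ 2 / 2) := by
      field_simp
    rw [this]
    refine mul_le_mul_of_nonneg_left ?_ hδ.le
    have hΛ2 : Λ ≤ Λ ^ 2 := by nlinarith
    have a1 : A * Λ ≤ A * Λ ^ 2 := mul_le_mul_of_nonneg_left hΛ2 hA0.le
    have a2 : 2 * Λ ^ 2 ≤ A * Λ ^ 2 := mul_le_mul_of_nonneg_right hA (by positivity)
    nlinarith
  · refine e2.trans ?_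
    have : A + 1 / δ * (δ * Λ) = A + Λ := by
      field_simp
    rw [this]
    nlinarith

/-- **LEAF L-252-S3e2-C1: the local sheet match reaches the anchor** (chief's FWD; 03 l.1376-1384).  `A` = GEOMETRIC slack (all radii), `Λ ≥ 1` = SIZE slack (free; no radius depends on it).  `G z = P' (z, f z)`.  At the source nodes `‖G‖ ≤ A * δ Λ + δ Λ²/2 ≤ δ * 2 A Λ²` (`k3e2_eval_near` with `B = A ≥ √A`,
`Δ = δ Λ`, `cb = 1/δ`; `‖node‖ ≤ 8`).   `k3e2_grid_ball` at `z0` (`k3e2_safe_low`; the ball `⊆` tube), then `k3e2_fwd` with `r = 1/(8A)`, then `k3e2_near_root` at `z` with `‖dsc P' z‖ ≥ 1/A`.  All transfers are linear in `M`. -/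
theorem k3e2_match_anchor (n : ℕ) : ∃ C : ℝ, 1 ≤ C ∧ ∀ (A Λ δ hs : ℝ), 2 ≤ A → 1 ≤ Λ → 0 < δ → 0 < hs → hs ≤ 1 / (40 * A) → ∀ (P P' : K3bEq n) (z0 α : Fin n → ℂ) (σ : ℂ), ‖z0‖ ≤ 1 → ‖α‖ ≤ 2 → ‖σ‖ ≤ 2 →
    K3e2Bd P.dsc A → K3e2Bd P'.dsc A → |P'.c| ≤ 1 / δ → K3bSafe P.dsc z0 α σ A → K3e2Low P'.dsc α A →
    ∀ f : (Fin n → ℂ) → ℂ, K3e2Root P (k3bTubeN z0 α σ (1 / A)) f →
    (∀ κ, ∃ ω : ℂ, P'.ev (k3e2Node z0 hs κ) ω = 0 ∧ ‖f (k3e2Node z0 hs κ) - ω‖ ≤ δ * Λ) →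
    ∀ z, ‖z - α‖ ≤ 1 / (6 * A) → ∃ ω : ℂ, P'.ev z ω = 0 ∧ ‖f z - ω‖ ≤ δ * (C * (1 / hs) ^ C * Λ ^ 2) := by
  obtain ⟨C5, hC5, HG⟩ := k3e2_grid_ball n
  obtain ⟨C2, hC2, HF⟩ := k3e2_fwd n
  refine ⟨4 * C2 * C5 + 2 + 2 * C2 + C5, by nlinarith [mul_pos (show (0:ℝ) < C2 by linarith) (show (0:ℝ) < C5 by linarith)], ?_⟩
  intro A Λ δ hs hA hΛ hδ hs0 hs1 P P' z0 α σ hz0 hα hσ hbd hbd' hcv hsafe hlow f hf hnode z hz
  have hA0 : (0 : ℝ) < A := by linarith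
  have hy : 40 * A ≤ 1 / hs := by
    rw [le_div_iff₀ hs0]
    have := mul_le_mul_of_nonneg_left hs1 (show (0:ℝ) ≤ 40 * A by positivity)
    rwa [mul_one_div_cancel (by positivity)] at this
  have g1 := HG A hs hA hs0 hs1 P P' z0 (by linarith) hbd (k3e2_safe_low _ _ _ _ _ hsafe).1 f (k3e2_root_mono P _ _ (k3e2_ball_tube0 z0 α σ _) f hf) (δ * (2 * A * Λ ^ 2))
    (fun κ => (k3e2_node_eval A Λ δ hs hA hΛ hδ hs0.le hs1 P' z0 (by linarith) hbd' hcv f κ (hnode κ)).1)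
  have hr0 : (0 : ℝ) < 1 / (8 * A) := by positivity
  have hr1 : 1 / (8 * A) ≤ 1 := by
    rw [div_le_one (by positivity)]
    linarith
  have g2 := HF A (1 / (8 * A)) hA hr0 hr1 P P' z0 α σ hz0 hα hσ hbd hsafe f hf _ g1 z hz
  have hzA : ‖z - α‖ ≤ 1 / A := hz.trans (one_div_le_one_div_of_le hA0 (by linarith))
  have hD : 1 / A ≤ ‖P'.dsc.ev z‖ := by
    have := hlow (z - α) hzA
    rwa [add_sub_cancel] at this
  have hne : P'.dsc.ev z ≠ 0 := by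
    intro h0
    rw [h0, norm_zero] at hD
    have : 0 < 1 / A := by positivity
    linarith
  obtain ⟨ω, hω, hcl⟩ := k3e2_near_root P' z (f z) hne
  refine ⟨ω, hω, ?_⟩
  have hsq : 1 / A ≤ Real.sqrt ‖P'.dsc.ev z‖ := by
    refine Real.le_sqrt_of_sq_le ?_
    refine le_trans ?_ hD
    have h1 : 1 / A ≤ 1 := by
      rw [div_le_one hA0]
      linarith
    have h0 : 0 ≤ 1 / A := by positivity
    nlinarith
  have h3 : ‖f z - ω‖ ≤ A * (2 * ‖P'.ev z (f z)‖) := by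
    have : ‖f z - ω‖ * (1 / A) ≤ 2 * ‖P'.ev z (f z)‖ := (mul_le_mul_of_nonneg_left hsq (norm_nonneg _)).trans hcl
    have e : ‖f z - ω‖ = A * (‖f z - ω‖ * (1 / A)) := by field_simp
    rw [e]
    exact mul_le_mul_of_nonneg_left this hA0.le
  have ar := k3e2_c12_arith C2 C5 A (1 / hs) hC2 hC5 hA hy
  calc ‖f z - ω‖ ≤ A * (2 * ‖P'.ev z (f z)‖) := h3
    _ ≤ A * (2 * (C2 * (A / (1 / (8 * A))) ^ C2 * (C5 * (1 / hs) ^ C5 * (δ * (2 * A * Λ ^ 2))))) := by gcongr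
    _ = δ * ((4 * A ^ 2 * (C2 * (A / (1 / (8 * A))) ^ C2 * (C5 * (1 / hs) ^ C5))) * Λ ^ 2) := by ring
    _ ≤ _ := by gcongr

/-- **C1b: list knowledge on a retained pair** (03 l.1385-1411): the bin tuple of the source is in the list of `P' = P~_{A',D}`.  C1 at the anchor nodes (`k3e2_node_dist`: `5 hn ≤ 1/(6A)`), `k3e2_list_mem`. -/
theorem k3e2_pair_list (n : ℕ) : ∃ C : ℝ, 1 ≤ C ∧ ∀ (A Λ δ hs hn h : ℝ), 2 ≤ A → 1 ≤ Λ → 0 < δ → 0 < hs → hs ≤ 1 / (40 * A) → 0 ≤ hn → hn ≤ 1 / (40 * A) → δ * (C * (1 / hs) ^ C * Λ ^ 2) ≤ h →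
    ∀ (P P' : K3bEq n) (z0 α : Fin n → ℂ) (σ : ℂ), ‖z0‖ ≤ 1 → ‖α‖ ≤ 2 → ‖σ‖ ≤ 2 →
    K3e2Bd P.dsc A → K3e2Bd P'.dsc A → |P'.c| ≤ 1 / δ → K3bSafe P.dsc z0 α σ A → K3e2Low P'.dsc α A →
    ∀ f : (Fin n → ℂ) → ℂ, K3e2Root P (k3bTubeN z0 α σ (1 / A)) f →
    (∀ κ, ∃ ω : ℂ, P'.ev (k3e2Node z0 hs κ) ω = 0 ∧ ‖f (k3e2Node z0 hs κ) - ω‖ ≤ δ * Λ) →
    k3e2Tup α hn h f ∈ k3e2List P' α hn h := by
  obtain ⟨C, hC, H⟩ := k3e2_match_anchor n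
  refine ⟨C, hC, ?_⟩
  intro A Λ δ hs hn h hA hΛ hδ hs0 hs1 hn0 hn1 hh P P' z0 α σ hz0 hα hσ hbd hbd' hcv hsafe hlow f hf hnode
  have hA0 : (0 : ℝ) < A := by linarith
  have hpos : 0 < h := by
    refine lt_of_lt_of_le ?_ hh
    have : 0 < 1 / hs := by positivity
    positivity
  refine k3e2_list_mem P' α hn h hpos f fun κ => ?_
  have hd : ‖k3e2Node α hn κ - α‖ ≤ 1 / (6 * A) := by
    refine (k3e2_node_dist α hn hn0 κ).trans ?_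
    have : 5 * hn ≤ 5 * (1 / (40 * A)) := by linarith
    refine this.trans ?_
    rw [mul_one_div, div_le_div_iff₀ (by positivity) (by positivity)]
    nlinarith
  obtain ⟨ω, hω, hcl⟩ := H A Λ δ hs hA hΛ hδ hs0 hs1 P P' z0 α σ hz0 hα hσ hbd hbd' hcv hsafe hlow f hf hnode _ hd
  exact ⟨ω, hω, hcl.trans hh⟩

/-- **LEAF L-252-S3e2-C2: the evaluations of the representative, returned to the source** (chief's REP; 03 l.1429-1462, (3.26)).  At the anchor nodes `k3e2_eval_near` (`B = A`, `Δ = δ Λ`, `cb = 1/δ`): `‖P^ (y, f y)‖ ≤ δ (A Λ + Λ²/2)`, `‖P^_w (y, f y)‖ ≤ A + Λ`.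
`k3e2_grid_ball` at `α` (for `P^` and for `k3e2Dw P^`, `k3e2_dw_ev`), then `k3e2_bwd` with `r = 1/(8A)`.   `Λ` = (bin spacing)/δ, a free SIZE slack. -/
theorem k3e2_rep_source (n : ℕ) : ∃ C : ℝ, 1 ≤ C ∧ ∀ (A Λ δ hn : ℝ), 2 ≤ A → 1 ≤ Λ → 0 < δ → 0 < hn → hn ≤ 1 / (40 * A) → ∀ (P Ph : K3bEq n) (z0 α : Fin n → ℂ) (σ : ℂ), ‖z0‖ ≤ 1 → ‖α‖ ≤ 2 → ‖σ‖ ≤ 2 →
    K3e2Bd P.dsc A → K3e2Bd Ph.dsc A → |Ph.c| ≤ 1 / δ → K3bSafe P.dsc z0 α σ A →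
    ∀ f : (Fin n → ℂ) → ℂ, K3e2Root P (k3bTubeN z0 α σ (1 / A)) f →
    (∀ κ, ∃ ω : ℂ, Ph.ev (k3e2Node α hn κ) ω = 0 ∧ ‖f (k3e2Node α hn κ) - ω‖ ≤ δ * Λ) →
    ∀ z, ‖z - z0‖ ≤ 1 / (6 * A) → ‖Ph.ev z (f z)‖ ≤ δ * (C * (1 / hn) ^ C * Λ ^ 2) ∧ ‖Ph.dw z (f z)‖ ≤ C * (1 / hn) ^ C * Λ := by
  obtain ⟨C5, hC5, HG⟩ := k3e2_grid_ball n
  obtain ⟨C2, hC2, HB⟩ := k3e2_bwd n
  refine ⟨4 * C2 * C5 + 2 + 2 * C2 + C5, by nlinarith [mul_pos (show (0:ℝ) < C2 by linarith) (show (0:ℝ) < C5 by linarith)], ?_⟩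
  intro A Λ δ hn hA hΛ hδ hn0 hn1 P Ph z0 α σ hz0 hα hσ hbd hbdh hcv hsafe f hf hnode z hz
  have hA0 : (0 : ℝ) < A := by linarith
  have hy : 40 * A ≤ 1 / hn := by
    rw [le_div_iff₀ hn0]
    have := mul_le_mul_of_nonneg_left hn1 (show (0:ℝ) ≤ 40 * A by positivity)
    rwa [mul_one_div_cancel (by positivity)] at this
  have hroot := k3e2_root_mono P _ _ (k3e2_ball_tube1 z0 α σ (1 / A)) f hf
  have hlowα := (k3e2_safe_low _ _ _ _ _ hsafe).2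
  have g1 := HG A hn hA hn0 hn1 P Ph α hα hbd hlowα f hroot (δ * (2 * A * Λ ^ 2))
    (fun κ => (k3e2_node_eval A Λ δ hn hA hΛ hδ hn0.le hn1 Ph α hα hbdh hcv f κ (hnode κ)).1)
  have g1' := HG A hn hA hn0 hn1 P (k3e2Dw Ph) α hα hbd hlowα f hroot (2 * A * Λ)
    (fun κ => by rw [k3e2_dw_ev]; exact (k3e2_node_eval A Λ δ hn hA hΛ hδ hn0.le hn1 Ph α hα hbdh hcv f κ (hnode κ)).2)
  have hr0 : (0 : ℝ) < 1 / (8 * A) := by positivity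
  have hr1 : 1 / (8 * A) ≤ 1 := by
    rw [div_le_one (by positivity)]
    linarith
  have g2 := HB A (1 / (8 * A)) hA hr0 hr1 P Ph z0 α σ hz0 hα hσ hbd hsafe f hf _ g1 z hz
  have g2' := HB A (1 / (8 * A)) hA hr0 hr1 P (k3e2Dw Ph) z0 α σ hz0 hα hσ hbd hsafe f hf _ g1' z hz
  rw [k3e2_dw_ev] at g2'
  have ar := k3e2_c12_arith C2 C5 A (1 / hn) hC2 hC5 hA hy
  have hX : 0 ≤ C2 * (A / (1 / (8 * A))) ^ C2 * (C5 * (1 / hn) ^ C5) := by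
    have : 0 < 1 / hn := by positivity
    positivity
  have h24 : 2 * A ≤ 4 * A ^ 2 := by nlinarith
  have ar2 : 2 * A * (C2 * (A / (1 / (8 * A))) ^ C2 * (C5 * (1 / hn) ^ C5)) ≤ (4 * C2 * C5 + 2 + 2 * C2 + C5) * (1 / hn) ^ (4 * C2 * C5 + 2 + 2 * C2 + C5) :=
    (mul_le_mul_of_nonneg_right h24 hX).trans ar
  constructor
  · calc ‖Ph.ev z (f z)‖ ≤ C2 * (A / (1 / (8 * A))) ^ C2 * (C5 * (1 / hn) ^ C5 * (δ * (2 * A * Λ ^ 2))) := g2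
      _ = δ * ((2 * A * (C2 * (A / (1 / (8 * A))) ^ C2 * (C5 * (1 / hn) ^ C5))) * Λ ^ 2) := by ring
      _ ≤ _ := by gcongr
  · calc ‖Ph.dw z (f z)‖ ≤ C2 * (A / (1 / (8 * A))) ^ C2 * (C5 * (1 / hn) ^ C5 * (2 * A * Λ)) := g2'
      _ = (2 * A * (C2 * (A / (1 / (8 * A))) ^ C2 * (C5 * (1 / hn) ^ C5))) * Λ := by ring
      _ ≤ _ := by gcongr

/-- **LEAF L-252-S3e2-C3a** (an affine function keeps its lower bound for a time `1/(4A²)`).  `|β1| = |u 1 - u 0| ≤ 2A`. -/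
theorem k3e2_affine_persist (β0 β1 A t0 : ℝ) (hA : 1 ≤ A) (hup : ∀ t ∈ Set.Icc (0 : ℝ) 1, |β0 + β1 * t| ≤ A) (hlow : 1 / A ≤ |β0 + β1 * t0|) :
    ∀ t, |t - t0| ≤ 1 / (4 * A ^ 2) → 1 / (2 * A) ≤ |β0 + β1 * t| := by
  intro t ht
  have h0 := abs_le.1 (hup 0 ⟨le_rfl, zero_le_one⟩)
  have h1 := abs_le.1 (hup 1 ⟨zero_le_one, le_rfl⟩)
  have hβ : |β1| ≤ 2 * A := by
    rw [abs_le]
    constructor <;> linarith [h0.1, h0.2, h1.1, h1.2]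
  have hA0 : 0 < A := by linarith
  have h2 : |β1 * (t - t0)| ≤ 1 / (2 * A) := by
    rw [abs_mul]
    calc |β1| * |t - t0| ≤ (2 * A) * (1 / (4 * A ^ 2)) := mul_le_mul hβ ht (abs_nonneg _) (by positivity)
      _ = 1 / (2 * A) := by
          field_simp
          ring
  have h3 : |β0 + β1 * t0| ≤ |β0 + β1 * t| + |β1 * (t - t0)| := by
    have e : β0 + β1 * t0 = (β0 + β1 * t) - β1 * (t - t0) := by ring
    rw [e]
    exact abs_sub _ _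
  have h4 : 1 / A = 1 / (2 * A) + 1 / (2 * A) := by
    field_simp
    ring
  linarith

/-- **C3b** (extrapolation of degree two).  `rmz_quad_coeff_int` in `R252/Remez/Misc.lean`, or Lagrange at `a, a + lam/2, a + lam`. -/
theorem k3e2_extrap (γ0 γ1 γ2 M lam a : ℝ) (hlam : 0 < lam) (ha : 0 ≤ a) (ha1 : a + lam ≤ 1) (h : ∀ t ∈ Set.Icc a (a + lam), |γ0 + γ1 * t + γ2 * t ^ 2| ≤ M) :
    ∀ t ∈ Set.Icc (0 : ℝ) 1, |γ0 + γ1 * t + γ2 * t ^ 2| ≤ 17 / lam ^ 2 * M := by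
  intro t ht
  have hl1 : lam ≤ 1 := by linarith
  have y0 := abs_le.1 (h a ⟨le_rfl, by linarith⟩)
  have y1 := abs_le.1 (h (a + lam / 2) ⟨by linarith, by linarith⟩)
  have y2 := abs_le.1 (h (a + lam) ⟨by linarith, le_rfl⟩)
  have hM : 0 ≤ M := by linarith [y0.1, y0.2]
  obtain ⟨X, hX⟩ : ∃ X : ℝ, X = γ2 * lam ^ 2 := ⟨_, rfl⟩
  obtain ⟨Y, hY⟩ : ∃ Y : ℝ, Y = (γ1 + 2 * γ2 * a) * lam := ⟨_, rfl⟩
  obtain ⟨Z, hZ⟩ : ∃ Z : ℝ, Z = γ0 + γ1 * a + γ2 * a ^ 2 := ⟨_, rfl⟩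
  have e1 : γ0 + γ1 * (a + lam / 2) + γ2 * (a + lam / 2) ^ 2 = X / 4 + Y / 2 + Z := by rw [hX, hY, hZ]; ring
  have e2 : γ0 + γ1 * (a + lam) + γ2 * (a + lam) ^ 2 = X + Y + Z := by rw [hX, hY, hZ]; ring
  rw [← hZ] at y0
  rw [e1] at y1
  rw [e2] at y2
  have bX : |X| ≤ 8 * M := by
    rw [abs_le]
    constructor <;> linarith [y0.1, y0.2, y1.1, y1.2, y2.1, y2.2]
  have bY : |Y| ≤ 8 * M := by
    rw [abs_le]
    constructor <;> linarith [y0.1, y0.2, y1.1, y1.2, y2.1, y2.2]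
  have bZ : |Z| ≤ M := abs_le.2 y0
  obtain ⟨s, hs⟩ : ∃ s : ℝ, s = t - a := ⟨_, rfl⟩
  have hs1 : |s| ≤ 1 := by
    rw [hs, abs_le]
    constructor <;> linarith [ht.1, ht.2]
  have hl2 : 0 < lam ^ 2 := by positivity
  rw [div_mul_eq_mul_div, le_div_iff₀ hl2]
  have e3 : |γ0 + γ1 * t + γ2 * t ^ 2| * lam ^ 2 = |X * s ^ 2 + Y * (lam * s) + Z * lam ^ 2| := by
    rw [← abs_of_pos hl2, ← abs_mul, abs_of_pos hl2, hX, hY, hZ, hs]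
    congr 1
    ring
  rw [e3]
  have c1 : |X * s ^ 2| ≤ 8 * M := by
    rw [abs_mul, abs_pow]
    calc |X| * |s| ^ 2 ≤ (8 * M) * 1 := mul_le_mul bX (pow_le_one₀ (abs_nonneg _) hs1) (by positivity) (by positivity)
      _ = 8 * M := mul_one _
  have c2 : |Y * (lam * s)| ≤ 8 * M := by
    rw [abs_mul, abs_mul, abs_of_pos hlam]
    calc |Y| * (lam * |s|) ≤ (8 * M) * (1 * 1) := mul_le_mul bY (mul_le_mul hl1 hs1 (abs_nonneg _) zero_le_one) (by positivity) (by positivity)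
      _ = 8 * M := by ring
  have c3 : |Z * lam ^ 2| ≤ M := by
    rw [abs_mul, abs_of_pos hl2]
    calc |Z| * lam ^ 2 ≤ M * 1 := mul_le_mul bZ (pow_le_one₀ hlam.le hl1) hl2.le hM
      _ = M := mul_one _
  calc |X * s ^ 2 + Y * (lam * s) + Z * lam ^ 2| ≤ |X * s ^ 2| + |Y * (lam * s)| + |Z * lam ^ 2| := abs_add_three _ _ _
    _ ≤ 17 * M := by linarith

theorem k3e2_C_cont : Continuous (k3bC : (Fin n → ℝ) → Fin n → ℂ) :=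
  continuous_pi fun i => Complex.continuous_ofReal.comp (continuous_apply i)

theorem k3e2_C_sub_norm (x y : Fin n → ℝ) : ‖k3bC x - k3bC y‖ = ‖x - y‖ := by
  have e : ∀ r : ℝ, 0 ≤ r → (‖k3bC x - k3bC y‖ ≤ r ↔ ‖x - y‖ ≤ r) := by
    intro r hr
    rw [pi_norm_le_iff_of_nonneg hr, pi_norm_le_iff_of_nonneg hr]
    refine forall_congr' fun i => ?_
    have : (k3bC x - k3bC y) i = ((x i - y i : ℝ) : ℂ) := by
      simp [k3bC]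
    rw [this, Complex.norm_real]
    rfl
  exact le_antisymm ((e _ (norm_nonneg _)).2 le_rfl) ((e _ (norm_nonneg _)).1 le_rfl)

/-- the dichotomy at one time -/
theorem k3e2_seg_one (c G u hd : ℂ) (ε b : ℝ) (hb : 0 < b) (hc : 4 * ‖c‖ * ε ≤ b ^ 2) (hG : ‖G‖ ≤ ε) (hu : b ≤ ‖u‖) (he : G + u * hd + c / 2 * hd ^ 2 = 0)
    (h : ‖c‖ * ‖hd‖ ≤ b) : ‖hd‖ * b ≤ 2 * ε ∧ ‖c‖ * ‖hd‖ ≤ b / 2 := by
  have h1 : hd * (u + c / 2 * hd) = -G := by linear_combination he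
  have h2 : b / 2 ≤ ‖u + c / 2 * hd‖ := by
    have h3 : ‖u‖ ≤ ‖u + c / 2 * hd‖ + ‖c / 2 * hd‖ := by
      have e : u = (u + c / 2 * hd) - c / 2 * hd := by ring
      calc ‖u‖ = ‖(u + c / 2 * hd) - c / 2 * hd‖ := by rw [← e]
        _ ≤ _ := norm_sub_le _ _
    have h4 : ‖c / 2 * hd‖ = ‖c‖ * ‖hd‖ / 2 := by
      rw [norm_mul, norm_div]
      have : ‖(2 : ℂ)‖ = 2 := by simp
      rw [this]
      ring
    linarith
  have h5 : ‖hd‖ * ‖u + c / 2 * hd‖ ≤ ε := by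
    rw [← norm_mul, h1, norm_neg]
    exact hG
  have h6 : ‖hd‖ * (b / 2) ≤ ε := (mul_le_mul_of_nonneg_left h2 (norm_nonneg _)).trans h5
  have h7 : ‖hd‖ * b ≤ 2 * ε := by linarith
  refine ⟨h7, ?_⟩
  have h8 : ‖c‖ * ‖hd‖ * b ≤ b / 2 * b := by
    calc ‖c‖ * ‖hd‖ * b = ‖c‖ * (‖hd‖ * b) := by ring
      _ ≤ ‖c‖ * (2 * ε) := mul_le_mul_of_nonneg_left h7 (norm_nonneg _)
      _ ≤ b / 2 * b := by nlinarith
  exact le_of_mul_le_mul_right h8 hb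

/-- **LEAF L-252-S3e2-C4: the actual `w` stays near the SAME source branch on a real segment** (chief's SEG; 03 l.1464-1487).  `hd t = f (z t) - w t`, `u = P_w (z, w)`: `hd (u + (c/2) hd) = - P (z, w)` (`k3e2_taylor`, `k3e2_ev_real`, `k3e2_dw_real`).
DICHOTOMY: `|c| ‖hd‖ ≤ b` ⟹ `‖hd‖ b ≤ 2ε` ⟹ `|c| ‖hd‖ ≤ b/2`.   So the continuous function `t ↦ |c| ‖hd t‖` on the connected `J` omits `(b/2, b]`, and is `≤ b` at `t0`: it stays `≤ b/2` (`IsPreconnected.intermediate_value` at `3b/4`).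
Covers replaced sources (`c = 0`, `P_w = 1`). -/
theorem k3e2_seg (P : K3bEq n) (J : Set ℝ) (hJ : J.OrdConnected) (t0 : ℝ) (ht0 : t0 ∈ J) (x : ℝ → Fin n → ℝ) (w : ℝ → ℝ) (hx : ContinuousOn x J) (hw : ContinuousOn w J)
    (ε b : ℝ) (hε : 0 ≤ ε) (hb : 0 < b) (hc : 4 * |P.c| * ε ≤ b ^ 2) (hv : ∀ t ∈ J, |P.evR (x t) (w t)| ≤ ε) (hd : ∀ t ∈ J, b ≤ |P.dwR (x t) (w t)|)
    (Ω : Set (Fin n → ℂ)) (f : (Fin n → ℂ) → ℂ) (hf : K3e2Root P Ω f) (hΩ : ∀ t ∈ J, k3bC (x t) ∈ Ω) (h0 : |P.c| * ‖f (k3bC (x t0)) - (w t0 : ℂ)‖ ≤ b) :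
    ∀ t ∈ J, ‖f (k3bC (x t)) - (w t : ℂ)‖ * b ≤ 2 * ε := by
  have hcn : ‖(P.c : ℂ)‖ = |P.c| := by rw [Complex.norm_real, Real.norm_eq_abs]
  have hone : ∀ t ∈ J, |P.c| * ‖f (k3bC (x t)) - (w t : ℂ)‖ ≤ b →
      ‖f (k3bC (x t)) - (w t : ℂ)‖ * b ≤ 2 * ε ∧ |P.c| * ‖f (k3bC (x t)) - (w t : ℂ)‖ ≤ b / 2 := by
    intro t ht h
    have h1 := (k3e2_taylor P (k3bC (x t)) (w t : ℂ) (f (k3bC (x t)))).1
    rw [hf.2 _ (hΩ t ht), k3e2_ev_real, k3e2_dw_real] at h1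
    rw [← hcn] at h ⊢
    refine k3e2_seg_one (P.c : ℂ) (P.evR (x t) (w t) : ℂ) (P.dwR (x t) (w t) : ℂ) _ ε b hb (by rw [hcn]; exact hc) ?_ ?_ h1.symm h
    · rw [Complex.norm_real, Real.norm_eq_abs]
      exact hv t ht
    · rw [Complex.norm_real, Real.norm_eq_abs]
      exact hd t ht
  have hcont : ContinuousOn (fun t => |P.c| * ‖f (k3bC (x t)) - (w t : ℂ)‖) J := by
    have h1 : ContinuousOn (fun t => f (k3bC (x t))) J := hf.1.comp (k3e2_C_cont.comp_continuousOn hx) hΩ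
    have h2 : ContinuousOn (fun t => ((w t : ℝ) : ℂ)) J := Complex.continuous_ofReal.comp_continuousOn hw
    exact continuousOn_const.mul (h1.sub h2).norm
  intro t ht
  refine (hone t ht ?_).1
  by_contra hcon
  have hlt : b < |P.c| * ‖f (k3bC (x t)) - (w t : ℂ)‖ := not_le.mp hcon
  have h00 := (hone t0 ht0 h0).2
  obtain ⟨t', ht', he⟩ := hJ.isPreconnected.intermediate_value ht0 ht hcont (show 3 * b / 4 ∈ Set.Icc _ _ from ⟨by linarith, by linarith⟩)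
  have he' : |P.c| * ‖f (k3bC (x t')) - (w t' : ℂ)‖ = 3 * b / 4 := he
  have := (hone t' ht' (by rw [he']; linarith)).2
  rw [he'] at this
  linarith

/-- the numerics of `k3e2_rep_upper` -/
theorem k3e2_upper_num (A₀ Mx ϱ lam M : ℝ) (hA₀ : 1 ≤ A₀) (hMx : 0 ≤ Mx) (hϱ : 0 < ϱ) (hϱ1 : ϱ ≤ 1) (hlam : lam = ϱ / (4 * A₀ ^ 2))
    (hM : M ≤ 13 * (A₀ ^ 4 * Mx)) : 17 / lam ^ 2 * M ≤ 3536 * (A₀ / ϱ) ^ (3536 : ℝ) * Mx := by
  have hA0 : 0 < A₀ := by linarith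
  have s2 : 17 / lam ^ 2 = 272 * A₀ ^ 4 / ϱ ^ 2 := by
    rw [hlam]
    field_simp
    ring
  have s4 : A₀ ^ 8 / ϱ ^ 2 ≤ (A₀ / ϱ) ^ 8 := by
    rw [div_pow]
    exact div_le_div₀ (by positivity) le_rfl (by positivity) (pow_le_pow_of_le_one hϱ.le hϱ1 (by norm_num))
  have hX : 1 ≤ A₀ / ϱ := by
    rw [one_le_div hϱ]
    linarith
  have s5 : (A₀ / ϱ) ^ 8 ≤ (A₀ / ϱ) ^ (3536 : ℝ) := by
    rw [← Real.rpow_natCast]
    exact Real.rpow_le_rpow_of_exponent_le hX (by norm_num)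
  calc 17 / lam ^ 2 * M ≤ 272 * A₀ ^ 4 / ϱ ^ 2 * (13 * (A₀ ^ 4 * Mx)) := by
        rw [s2]
        exact mul_le_mul_of_nonneg_left hM (by positivity)
    _ = 3536 * (A₀ ^ 8 / ϱ ^ 2) * Mx := by ring
    _ ≤ 3536 * (A₀ / ϱ) ^ (3536 : ℝ) * Mx := mul_le_mul_of_nonneg_right (mul_le_mul_of_nonneg_left (s4.trans s5) (by norm_num)) hMx

/-- **LEAF L-252-S3e2-C5: the representative fits the trajectory on the whole new block** (chief's SEG + EXTRAP; 03 l.1464-1503, (3.27)).  PARAMETERS: `A₀` (early: the source's own test, speed, curvature cutoff `C_A`), the radius `ϱ` of the source ball about the centre `z0` (net point), the sizes `Mv ≥ Md ≥ 1` of the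
returned evaluations (the conclusion is LINEAR in them).   `J = [0,1] ∩ [t0 - lam, t0 + lam]`, `lam = ϱ/(4 A₀²)`; it contains an interval of length `lam` (one-sided at the edges).
On `J`: C3a gives `b = 1/(2A₀)`, `‖x t - x t0‖ ≤ A₀ lam ≤ ϱ/2`;  C4 with `ε = δ A₀` gives `‖f - w‖ ≤ 4 δ A₀²`;  `k3e2_taylor` gives `|P^ (z, w)| ≤ δ (Mv + 4 Md A₀² + 8A₀⁴) ≤ δ * 13 A₀⁴ Mv`, `|P^_w (z, w)| ≤ Md + 4A₀² ≤ 5 A₀² Md`;  C3b costs `17 * 16 A₀⁴/ϱ²`.   The trajectory enters only through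
the displayed hypotheses (version 2: `x, w` affine in `t`; version 1: `P = w - F`, `w` quadratic). -/
theorem k3e2_rep_upper (n : ℕ) : ∃ C : ℝ, 1 ≤ C ∧ ∀ (A₀ Mv Md ϱ δ : ℝ), 1 ≤ A₀ → 1 ≤ Md → Md ≤ Mv → 0 < ϱ → ϱ ≤ 1 → 0 < δ → ∀ (P Ph : K3bEq n) (z0 : Fin n → ℂ) (t0 : ℝ), t0 ∈ Set.Icc (0 : ℝ) 1 → ∀ (x : ℝ → Fin n → ℝ) (w : ℝ → ℝ),
    ‖k3bC (x t0) - z0‖ ≤ ϱ / 2 → ContinuousOn x (Set.Icc 0 1) → ContinuousOn w (Set.Icc 0 1) → (∀ t ∈ Set.Icc (0 : ℝ) 1, ‖x t - x t0‖ ≤ A₀ * |t - t0|) →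
    (∀ t ∈ Set.Icc (0 : ℝ) 1, |P.evR (x t) (w t)| ≤ δ * A₀) → (∃ β0 β1 : ℝ, ∀ t ∈ Set.Icc (0 : ℝ) 1, P.dwR (x t) (w t) = β0 + β1 * t) → (∀ t ∈ Set.Icc (0 : ℝ) 1, |P.dwR (x t) (w t)| ≤ A₀) →
    1 / A₀ ≤ |P.dwR (x t0) (w t0)| → 16 * |P.c| * δ * A₀ ^ 3 ≤ 1 → |Ph.c| ≤ 1 / δ →
    (∃ γ0 γ1 γ2 : ℝ, ∀ t ∈ Set.Icc (0 : ℝ) 1, Ph.evR (x t) (w t) = γ0 + γ1 * t + γ2 * t ^ 2) → (∃ γ0 γ1 γ2 : ℝ, ∀ t ∈ Set.Icc (0 : ℝ) 1, Ph.dwR (x t) (w t) = γ0 + γ1 * t + γ2 * t ^ 2) →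
    ∀ f : (Fin n → ℂ) → ℂ, K3e2Root P (Metric.closedBall z0 ϱ) f → |P.c| * ‖f (k3bC (x t0)) - (w t0 : ℂ)‖ ≤ 1 / (2 * A₀) →
    (∀ z, ‖z - z0‖ ≤ ϱ → ‖Ph.ev z (f z)‖ ≤ δ * Mv ∧ ‖Ph.dw z (f z)‖ ≤ Md) →
    ∀ t ∈ Set.Icc (0 : ℝ) 1, |Ph.evR (x t) (w t)| ≤ δ * (C * (A₀ / ϱ) ^ C * Mv) ∧ |Ph.dwR (x t) (w t)| ≤ C * (A₀ / ϱ) ^ C * Md := by
  refine ⟨3536, by norm_num, ?_⟩
  intro A₀ Mv Md ϱ δ hA₀ hMd hMdv hϱ hϱ1 hδ P Ph z0 t0 ht0 x w hx0 hxc hwc hsp hPv hβ' hPd hlow hcP hcPh hγa hγb f hf hf0 hret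
  obtain ⟨β0, β1, hβ⟩ := hβ'
  obtain ⟨γ0, γ1, γ2, hγ⟩ := hγa
  obtain ⟨γ0', γ1', γ2', hγ'⟩ := hγb
  have hA0 : 0 < A₀ := by linarith
  have hMd0 : 0 < Md := by linarith
  have hMv0 : 0 < Mv := by linarith
  have hA0sq : 1 ≤ A₀ ^ 2 := one_le_pow₀ hA₀
  obtain ⟨lam, hlam⟩ : ∃ lam : ℝ, lam = ϱ / (4 * A₀ ^ 2) := ⟨_, rfl⟩
  have hlam0 : 0 < lam := by rw [hlam]; positivity
  have hlam1 : lam ≤ 1 / (4 * A₀ ^ 2) := by
    rw [hlam]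
    exact div_le_div_of_nonneg_right hϱ1 (by positivity)
  have hlam4 : lam ≤ 1 / 4 := by
    refine hlam1.trans ?_
    exact one_div_le_one_div_of_le (by norm_num) (by linarith)
  have hAl : A₀ * lam ≤ ϱ / 4 := by
    have e : A₀ * lam = ϱ / 4 / A₀ := by
      rw [hlam]
      field_simp
    rw [e]
    exact div_le_self (by positivity) hA₀
  obtain ⟨J, hJd⟩ : ∃ J : Set ℝ, J = Set.Icc (0 : ℝ) 1 ∩ Set.Icc (t0 - lam) (t0 + lam) := ⟨_, rfl⟩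
  have hJ : J.OrdConnected := by rw [hJd]; exact Set.ordConnected_Icc.inter Set.ordConnected_Icc
  have hJ1 : ∀ t ∈ J, t ∈ Set.Icc (0 : ℝ) 1 := by
    intro t ht
    rw [hJd] at ht
    exact ht.1
  have hJ2 : ∀ t ∈ J, |t - t0| ≤ lam := by
    intro t ht
    rw [hJd] at ht
    rw [abs_le]
    constructor <;> linarith [ht.2.1, ht.2.2]
  have ht0J : t0 ∈ J := by
    rw [hJd]
    exact ⟨ht0, by linarith, by linarith⟩
  have hJdw : ∀ t ∈ J, 1 / (2 * A₀) ≤ |P.dwR (x t) (w t)| := by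
    intro t ht
    rw [hβ t (hJ1 t ht)]
    exact k3e2_affine_persist β0 β1 A₀ t0 hA₀ (fun t ht => by rw [← hβ t ht]; exact hPd t ht) (by rw [← hβ t0 ht0]; exact hlow) t ((hJ2 t ht).trans hlam1)
  have hJb : ∀ t ∈ J, ‖k3bC (x t) - z0‖ ≤ ϱ := by
    intro t ht
    have h1 : ‖k3bC (x t) - k3bC (x t0)‖ ≤ ϱ / 4 := by
      rw [k3e2_C_sub_norm]
      exact ((hsp t (hJ1 t ht)).trans (mul_le_mul_of_nonneg_left (hJ2 t ht) hA0.le)).trans hAl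
    have h2 : k3bC (x t) - z0 = (k3bC (x t) - k3bC (x t0)) + (k3bC (x t0) - z0) := by abel
    rw [h2]
    refine (norm_add_le _ _).trans ?_
    linarith
  have hJΩ : ∀ t ∈ J, k3bC (x t) ∈ Metric.closedBall z0 ϱ := by
    intro t ht
    rw [Metric.mem_closedBall, dist_eq_norm]
    exact hJb t ht
  have hc' : 4 * |P.c| * (δ * A₀) ≤ (1 / (2 * A₀)) ^ 2 := by
    rw [div_pow, le_div_iff₀ (by positivity)]
    calc 4 * |P.c| * (δ * A₀) * (2 * A₀) ^ 2 = 16 * |P.c| * δ * A₀ ^ 3 := by ring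
      _ ≤ 1 ^ 2 := by rw [one_pow]; exact hcP
  have hseg := k3e2_seg P J hJ t0 ht0J x w (hxc.mono hJ1) (hwc.mono hJ1) (δ * A₀) (1 / (2 * A₀)) (by positivity) (by positivity) hc'
    (fun t ht => hPv t (hJ1 t ht)) hJdw (Metric.closedBall z0 ϱ) f hf hJΩ hf0
  have hdist : ∀ t ∈ J, ‖f (k3bC (x t)) - (w t : ℂ)‖ ≤ 4 * δ * A₀ ^ 2 := by
    intro t ht
    have h1 := hseg t ht
    rw [mul_one_div, div_le_iff₀ (by positivity)] at h1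
    calc _ ≤ 2 * (δ * A₀) * (2 * A₀) := h1
      _ = 4 * δ * A₀ ^ 2 := by ring
  have hev : ∀ t ∈ J, |Ph.evR (x t) (w t)| ≤ δ * (Mv + 4 * Md * A₀ ^ 2 + 8 * A₀ ^ 4) ∧ |Ph.dwR (x t) (w t)| ≤ Md + 4 * A₀ ^ 2 := by
    intro t ht
    obtain ⟨t1, t2⟩ := k3e2_taylor Ph (k3bC (x t)) (f (k3bC (x t))) (w t : ℂ)
    obtain ⟨r1, r2⟩ := hret _ (hJb t ht)
    have hΔ : ‖(w t : ℂ) - f (k3bC (x t))‖ ≤ 4 * δ * A₀ ^ 2 := by
      rw [norm_sub_rev]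
      exact hdist t ht
    have hn := norm_nonneg ((w t : ℂ) - f (k3bC (x t)))
    have hcn : ‖(Ph.c : ℂ)‖ ≤ 1 / δ := by rwa [Complex.norm_real, Real.norm_eq_abs]
    rw [k3e2_ev_real] at t1
    rw [k3e2_dw_real] at t2
    constructor
    · rw [← Real.norm_eq_abs, ← Complex.norm_real, t1]
      have b2 : ‖Ph.dw (k3bC (x t)) (f (k3bC (x t))) * ((w t : ℂ) - f (k3bC (x t)))‖ ≤ Md * (4 * δ * A₀ ^ 2) := by
        rw [norm_mul]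
        exact mul_le_mul r2 hΔ hn hMd0.le
      have b3 : ‖(Ph.c : ℂ) / 2 * ((w t : ℂ) - f (k3bC (x t))) ^ 2‖ ≤ 1 / δ / 2 * (4 * δ * A₀ ^ 2) ^ 2 := by
        rw [norm_mul, norm_pow, norm_div]
        have : ‖(2 : ℂ)‖ = 2 := by simp
        rw [this]
        gcongr
      have e3 : 1 / δ / 2 * (4 * δ * A₀ ^ 2) ^ 2 = δ * (8 * A₀ ^ 4) := by
        field_simp
        ring
      rw [e3] at b3
      calc _ ≤ ‖Ph.ev (k3bC (x t)) (f (k3bC (x t)))‖ + ‖Ph.dw (k3bC (x t)) (f (k3bC (x t))) * ((w t : ℂ) - f (k3bC (x t)))‖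
            + ‖(Ph.c : ℂ) / 2 * ((w t : ℂ) - f (k3bC (x t))) ^ 2‖ := norm_add₃_le
        _ ≤ δ * Mv + Md * (4 * δ * A₀ ^ 2) + δ * (8 * A₀ ^ 4) := by linarith
        _ = δ * (Mv + 4 * Md * A₀ ^ 2 + 8 * A₀ ^ 4) := by ring
    · rw [← Real.norm_eq_abs, ← Complex.norm_real, t2]
      have b2 : ‖(Ph.c : ℂ) * ((w t : ℂ) - f (k3bC (x t)))‖ ≤ 1 / δ * (4 * δ * A₀ ^ 2) := by
        rw [norm_mul]
        exact mul_le_mul hcn hΔ hn (by positivity)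
      have e3 : 1 / δ * (4 * δ * A₀ ^ 2) = 4 * A₀ ^ 2 := by
        field_simp
      rw [e3] at b2
      exact (norm_add_le _ _).trans (add_le_add r2 b2)
  obtain ⟨a, ha0, ha1, haJ⟩ : ∃ a : ℝ, 0 ≤ a ∧ a + lam ≤ 1 ∧ ∀ t ∈ Set.Icc a (a + lam), t ∈ J := by
    by_cases hcase : t0 + lam ≤ 1
    · refine ⟨t0, ht0.1, hcase, fun t ht => ?_⟩
      rw [hJd]
      exact ⟨⟨ht0.1.trans ht.1, ht.2.trans hcase⟩, by linarith [ht.1], ht.2⟩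
    · have h1 : 1 < t0 + lam := not_le.mp hcase
      refine ⟨t0 - lam, by linarith, by linarith [ht0.2], fun t ht => ?_⟩
      rw [hJd]
      exact ⟨⟨by linarith [ht.1], by linarith [ht.2, ht0.2]⟩, ht.1, by linarith [ht.2]⟩
  have hA4 : 1 ≤ A₀ ^ 4 := one_le_pow₀ hA₀
  have hA24 : A₀ ^ 2 ≤ A₀ ^ 4 := pow_le_pow_right₀ hA₀ (by norm_num)
  intro t ht
  constructor
  · rw [hγ t ht]
    have h1 := k3e2_extrap γ0 γ1 γ2 (δ * (Mv + 4 * Md * A₀ ^ 2 + 8 * A₀ ^ 4)) lam a hlam0 ha0 ha1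
      (fun t ht => by rw [← hγ t (hJ1 t (haJ t ht))]; exact (hev t (haJ t ht)).1) t ht
    refine h1.trans ?_
    have h3 : Mv + 4 * Md * A₀ ^ 2 + 8 * A₀ ^ 4 ≤ 13 * (A₀ ^ 4 * Mv) := by
      have a1 : Mv ≤ A₀ ^ 4 * Mv := le_mul_of_one_le_left hMv0.le hA4
      have a2 : Md * A₀ ^ 2 ≤ A₀ ^ 4 * Mv := by
        rw [mul_comm]
        exact mul_le_mul hA24 hMdv hMd0.le (by positivity)
      have a3 : A₀ ^ 4 ≤ A₀ ^ 4 * Mv := le_mul_of_one_le_right (by positivity) (hMd.trans hMdv)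
      linarith
    have h2 := k3e2_upper_num A₀ Mv ϱ lam (Mv + 4 * Md * A₀ ^ 2 + 8 * A₀ ^ 4) hA₀ hMv0.le hϱ hϱ1 hlam h3
    calc 17 / lam ^ 2 * (δ * (Mv + 4 * Md * A₀ ^ 2 + 8 * A₀ ^ 4)) = δ * (17 / lam ^ 2 * (Mv + 4 * Md * A₀ ^ 2 + 8 * A₀ ^ 4)) := by ring
      _ ≤ _ := mul_le_mul_of_nonneg_left h2 hδ.le
  · rw [hγ' t ht]
    have h1 := k3e2_extrap γ0' γ1' γ2' (Md + 4 * A₀ ^ 2) lam a hlam0 ha0 ha1
      (fun t ht => by rw [← hγ' t (hJ1 t (haJ t ht))]; exact (hev t (haJ t ht)).2) t ht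
    refine h1.trans ?_
    have h3 : Md + 4 * A₀ ^ 2 ≤ 13 * (A₀ ^ 4 * Md) := by
      have a1 : Md ≤ A₀ ^ 4 * Md := le_mul_of_one_le_left hMd0.le hA4
      have a3 : A₀ ^ 2 ≤ A₀ ^ 4 * Md := hA24.trans (le_mul_of_one_le_right (by positivity) hMd)
      linarith
    exact k3e2_upper_num A₀ Md ϱ lam (Md + 4 * A₀ ^ 2) hA₀ hMd0.le hϱ hϱ1 hlam h3

theorem k3e2_exit_num (C₂ C₅ X Y L : ℝ) (h2 : 1 ≤ C₂) (h5 : 1 ≤ C₅) (hX : 1 ≤ X) (hY0 : 0 ≤ Y) (hY : Y ≤ X ^ 2) (hL : 0 ≤ L) :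
    C₅ * Y ^ C₅ * (C₂ * X ^ C₂ * L) ≤ (C₅ * C₂ + 2 * C₅ + C₂) * X ^ (C₅ * C₂ + 2 * C₅ + C₂) * L := by
  have hX0 : 0 < X := by linarith
  have a1 : Y ^ C₅ ≤ X ^ (2 * C₅) := by
    calc Y ^ C₅ ≤ (X ^ 2) ^ C₅ := Real.rpow_le_rpow hY0 hY (by linarith)
      _ = X ^ (2 * C₅) := by
        rw [← Real.rpow_natCast X 2, ← Real.rpow_mul hX0.le]
        norm_num
  have a2 : X ^ (2 * C₅) * X ^ C₂ ≤ X ^ (C₅ * C₂ + 2 * C₅ + C₂) := by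
    rw [← Real.rpow_add hX0]
    exact Real.rpow_le_rpow_of_exponent_le hX (by nlinarith)
  have a3 : C₅ * C₂ ≤ C₅ * C₂ + 2 * C₅ + C₂ := by linarith
  calc C₅ * Y ^ C₅ * (C₂ * X ^ C₂ * L) = (C₅ * C₂) * (Y ^ C₅ * X ^ C₂) * L := by ring
    _ ≤ (C₅ * C₂ + 2 * C₅ + C₂) * X ^ (C₅ * C₂ + 2 * C₅ + C₂) * L := by
      refine mul_le_mul_of_nonneg_right ?_ hL
      refine mul_le_mul a3 ?_ (by positivity) (by positivity)
      exact (mul_le_mul_of_nonneg_right a1 (by positivity)).trans a2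


/-- **EXIT OF THE UNIT, LEAF L-252-S3e2-C6** (03 (3.27) from "same bin tuple as an eligible equation").  SLACKS: `A₀` early, `A` geometric (late), `Λ` size (free).  `K3e2Elig.own` + `k3e2_bin_same` give roots `ω` of `P^` at the anchor nodes with `‖f y - ω‖ ≤ 2h ≤ δ Λ`; C2; then C5 with
`ϱ = 1/(6A)`, `Mv = C₂ (1/hn)^{C₂} Λ²`, `Md = C₂ (1/hn)^{C₂} Λ`   (`closedBall z0 (1/(6A)) ⊆` tube).   `A₀ ≤ A ≤ 1/hn`. -/
theorem k3e2_exit (n : ℕ) : ∃ C : ℝ, 1 ≤ C ∧ ∀ (A₀ A Λ δ hn h : ℝ), 1 ≤ A₀ → A₀ ≤ A → 2 ≤ A → 1 ≤ Λ → 0 < δ → 0 < hn → hn ≤ 1 / (40 * A) → 0 < h → 2 * h ≤ δ * Λ →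
    ∀ (P Ph : K3bEq n) (z0 α : Fin n → ℂ) (σ : ℂ) (t0 : ℝ), t0 ∈ Set.Icc (0 : ℝ) 1 → ∀ (x : ℝ → Fin n → ℝ) (w : ℝ → ℝ), ‖z0‖ ≤ 1 → ‖α‖ ≤ 2 → ‖σ‖ ≤ 2 → ‖k3bC (x t0) - z0‖ ≤ 1 / (12 * A) →
    ContinuousOn x (Set.Icc 0 1) → ContinuousOn w (Set.Icc 0 1) → (∀ t ∈ Set.Icc (0 : ℝ) 1, ‖x t - x t0‖ ≤ A₀ * |t - t0|) →
    (∀ t ∈ Set.Icc (0 : ℝ) 1, |P.evR (x t) (w t)| ≤ δ * A₀) → (∃ β0 β1 : ℝ, ∀ t ∈ Set.Icc (0 : ℝ) 1, P.dwR (x t) (w t) = β0 + β1 * t) → (∀ t ∈ Set.Icc (0 : ℝ) 1, |P.dwR (x t) (w t)| ≤ A₀) →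
    1 / A₀ ≤ |P.dwR (x t0) (w t0)| → 16 * |P.c| * δ * A₀ ^ 3 ≤ 1 →
    (∃ γ0 γ1 γ2 : ℝ, ∀ t ∈ Set.Icc (0 : ℝ) 1, Ph.evR (x t) (w t) = γ0 + γ1 * t + γ2 * t ^ 2) → (∃ γ0 γ1 γ2 : ℝ, ∀ t ∈ Set.Icc (0 : ℝ) 1, Ph.dwR (x t) (w t) = γ0 + γ1 * t + γ2 * t ^ 2) →
    K3e2Bd P.dsc A → K3bSafe P.dsc z0 α σ A →
    ∀ f : (Fin n → ℂ) → ℂ, K3e2Root P (k3bTubeN z0 α σ (1 / A)) f → |P.c| * ‖f (k3bC (x t0)) - (w t0 : ℂ)‖ ≤ 1 / (2 * A₀) →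
    K3e2Elig Ph α hn h A δ (k3e2Tup α hn h f) →
    ∀ t ∈ Set.Icc (0 : ℝ) 1, |Ph.evR (x t) (w t)| ≤ δ * (C * (1 / hn) ^ C * Λ ^ 2) ∧ |Ph.dwR (x t) (w t)| ≤ C * (1 / hn) ^ C * Λ := by
  obtain ⟨C₂, hC₂, H2⟩ := k3e2_rep_source n
  obtain ⟨C₅, hC₅, H5⟩ := k3e2_rep_upper n
  refine ⟨C₅ * C₂ + 2 * C₅ + C₂, by nlinarith, ?_⟩
  intro A₀ A Λ δ hn h hA₀ hA₀A hA hΛ hδ hhn hhnA hh hhΛ P Ph z0 α σ t0 ht0 x w hz0 hα hσ hx0 hxc hwc hsp hPv hβ hPd hlow hcP hγa hγb hbd hsafe f hf hf0 hel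
  have hA0 : 0 < A := by linarith
  have hroots : ∀ κ, ∃ ω : ℂ, Ph.ev (k3e2Node α hn κ) ω = 0 ∧ ‖f (k3e2Node α hn κ) - ω‖ ≤ δ * Λ := by
    intro κ
    obtain ⟨ω, hω, hb⟩ := hel.own κ
    exact ⟨ω, hω, (k3e2_bin_same h hh _ _ hb).trans hhΛ⟩
  have hret := H2 A Λ δ hn hA hΛ hδ hhn hhnA P Ph z0 α σ hz0 hα hσ hbd hel.bd hel.curv hsafe f hf hroots
  obtain ⟨X, hX⟩ : ∃ X : ℝ, X = 1 / hn := ⟨_, rfl⟩
  rw [← hX] at hret ⊢
  have hXA : 40 * A ≤ X := by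
    rw [hX, le_div_iff₀ hhn]
    have := mul_le_mul_of_nonneg_left hhnA (by positivity : (0 : ℝ) ≤ 40 * A)
    have e : 40 * A * (1 / (40 * A)) = 1 := by field_simp
    linarith
  have hX1 : 1 ≤ X := by linarith
  have hXp : 1 ≤ X ^ C₂ := Real.one_le_rpow hX1 (by linarith)
  have hCX : 1 ≤ C₂ * X ^ C₂ := by nlinarith
  have hMd : 1 ≤ C₂ * X ^ C₂ * Λ := by nlinarith
  have hMdv : C₂ * X ^ C₂ * Λ ≤ C₂ * X ^ C₂ * Λ ^ 2 := by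
    refine mul_le_mul_of_nonneg_left ?_ (by linarith)
    nlinarith
  have hsub : Metric.closedBall z0 (1 / (6 * A)) ⊆ k3bTubeN z0 α σ (1 / A) := by
    intro z hz
    refine ⟨0, Or.inl (left_mem_segment ℝ 0 σ), ?_⟩
    have e : k3bPt z0 α 0 = z0 := by
      funext i
      simp [k3bPt]
    rw [e]
    rw [Metric.mem_closedBall, dist_eq_norm] at hz
    refine lt_of_le_of_lt hz ?_
    exact one_div_lt_one_div_of_lt hA0 (by linarith)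
  have hf' : K3e2Root P (Metric.closedBall z0 (1 / (6 * A))) f := ⟨hf.1.mono hsub, fun z hz => hf.2 z (hsub hz)⟩
  have hϱ1 : 1 / (6 * A) ≤ 1 := by
    rw [div_le_one (by positivity)]
    linarith
  have hx0' : ‖k3bC (x t0) - z0‖ ≤ 1 / (6 * A) / 2 := by
    have e : 1 / (6 * A) / 2 = 1 / (12 * A) := by
      field_simp
      ring
    rw [e]
    exact hx0
  have h5 := H5 A₀ (C₂ * X ^ C₂ * Λ ^ 2) (C₂ * X ^ C₂ * Λ) (1 / (6 * A)) δ hA₀ hMd hMdv (by positivity) hϱ1 hδ P Ph z0 t0 ht0 x w hx0' hxc hwc hsp hPv hβ hPd hlow hcP hel.curv hγa hγb f hf' hf0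
    (fun z hz => hret z hz)
  have hY0 : 0 ≤ A₀ / (1 / (6 * A)) := by positivity
  have hY : A₀ / (1 / (6 * A)) ≤ X ^ 2 := by
    have e : A₀ / (1 / (6 * A)) = 6 * A * A₀ := by
      field_simp
    rw [e]
    nlinarith
  intro t ht
  obtain ⟨r1, r2⟩ := h5 t ht
  constructor
  · refine r1.trans (mul_le_mul_of_nonneg_left ?_ hδ.le)
    exact k3e2_exit_num C₂ C₅ X _ (Λ ^ 2) hC₂ hC₅ hX1 hY0 hY (by positivity)
  · refine r2.trans ?_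
    exact k3e2_exit_num C₂ C₅ X _ Λ hC₂ hC₅ hX1 hY0 hY (by linarith)

end

end Claimed.Agent.R252
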