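import Claimed.Agent.R252.S3b.Defs

/-!
# ROW 252 (S0492), unit S3e2 (03-comparison.tex l.1318-1560), file 1: DEFINITIONS, ALGEBRA OF ONE EQUATION, BINS AND LISTS      CONTRACT (sub-architect helper133, chief helper70)   -- KEEP
PAPER-FREE.  Overview of the unit, route and order of constants: header of `S3e2/Contract.lean`.  The `sorry`s are the leaves `L-252-S3e2-A*`, `-L*`.  Prove IN PLACE (splice only your theorem + helpers `k3e2_..` just above it).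
-/

set_option autoImplicit false

namespace Claimed.Agent.R252

open MeasureTheory Polynomial
open scoped ENNReal BigOperators

noncomputable section

variable {n : ℕ}

/-! ## 0. Definitions -/

/-- a continuous root of the equation `P` over `Ω` -/
def K3e2Root (P : K3bEq n) (Ω : Set (Fin n → ℂ)) (f : (Fin n → ℂ) → ℂ) : Prop := ContinuousOn f Ω ∧ ∀ z ∈ Ω, P.ev z (f z) = 0

/-- `|D| ≥ 1/A` on the closed `1/A`-ball about `α` -/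
def K3e2Low (D : K3bQd n) (α : Fin n → ℂ) (A : ℝ) : Prop := ∀ u : Fin n → ℂ, ‖u‖ ≤ 1 / A → 1 / A ≤ ‖D.ev (α + u)‖

/-- `|D| ≤ A` on the complex polydisc of radius `8` (representation independent; `= K3bQd.Bd` of the chief's design note; it replaces bounds of `D.nm`) -/
def K3e2Bd (D : K3bQd n) (A : ℝ) : Prop := ∀ z : Fin n → ℂ, ‖z‖ ≤ 8 → ‖D.ev z‖ ≤ A

/-- the equation whose evaluation is `Q_w` -/
def k3e2Dw (Q : K3bEq n) : K3bEq n := ⟨⟨Q.a0, Q.a1, fun _ _ => 0⟩, Q.c, fun _ => 0, 0⟩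

/-- the complex line `s ↦ a + s v` -/
def k3e2Ln (a v : Fin n → ℂ) (s : ℂ) : Fin n → ℂ := fun i => a i + s * v i

/-- the nodes `α + h (κ - 5)`, `κ ∈ {0, .., 10}^n` : the tensor grid `α + h {-5..5}^n` -/
def k3e2Node (α : Fin n → ℂ) (h : ℝ) (κ : Fin n → Fin 11) : Fin n → ℂ := fun i => α i + ((h * (((κ i : ℕ) : ℝ) - 5) : ℝ) : ℂ)

/-- the bin of a complex number at spacing `h` -/
def k3e2Bin (h : ℝ) (w : ℂ) : ℤ × ℤ := (⌊w.re / h⌋, ⌊w.im / h⌋)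

/-- the tuple of bins of a function at the nodes -/
def k3e2Tup (α : Fin n → ℂ) (hn h : ℝ) (f : (Fin n → ℂ) → ℂ) : (Fin n → Fin 11) → ℤ × ℤ := fun κ => k3e2Bin h (f (k3e2Node α hn κ))

/-- the tuples of bins of roots of `Q` at the nodes ("own bins" of an equation) -/
def k3e2Own (Q : K3bEq n) (α : Fin n → ℂ) (hn h : ℝ) : Set ((Fin n → Fin 11) → ℤ × ℤ) :=
  {b | ∀ κ, ∃ ω : ℂ, Q.ev (k3e2Node α hn κ) ω = 0 ∧ b κ = k3e2Bin h ω}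

/-- the tuples of bins which neighbour bins of roots of `Q` at the nodes (the list which `A'` knows) -/
def k3e2List (Q : K3bEq n) (α : Fin n → ℂ) (hn h : ℝ) : Set ((Fin n → Fin 11) → ℤ × ℤ) :=
  {b | ∀ κ, ∃ ω : ℂ, Q.ev (k3e2Node α hn κ) ω = 0 ∧ |(b κ).1 - (k3e2Bin h ω).1| ≤ 1 ∧ |(b κ).2 - (k3e2Bin h ω).2| ≤ 1}

/-- eligibility of an equation as representative of the bin tuple `b` (03 l.1419-1427): a test on (equation, anchor, bin) only -/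
structure K3e2Elig (Q : K3bEq n) (α : Fin n → ℂ) (hn h A δ : ℝ) (b : (Fin n → Fin 11) → ℤ × ℤ) : Prop where
  bd : K3e2Bd Q.dsc A
  low : 1 / A ≤ ‖Q.dsc.ev α‖
  curv : |Q.c| ≤ 1 / δ
  own : b ∈ k3e2Own Q α hn h

theorem k3e2_defs_cite : True := by
  have := @K3e2Root.eq_1
  have := @K3e2Low.eq_1
  have := @K3e2Bd.eq_1
  have := @k3e2Dw.eq_1
  have := @k3e2Ln.eq_1
  have := @k3e2Node.eq_1
  have := @k3e2Bin.eq_1
  have := @k3e2Tup.eq_1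
  have := @k3e2Own.eq_1
  have := @k3e2List.eq_1
  trivial

/-! ## 1. Algebra of one equation -/

/-- **LEAF L-252-S3e2-A1a**. -/
theorem k3e2_dw_ev (Q : K3bEq n) (z : Fin n → ℂ) (w : ℂ) : (k3e2Dw Q).ev z w = Q.dw z w := by
  unfold k3e2Dw K3bEq.ev K3bEq.dw K3bEq.p1 K3bQd.ev
  simp

/-- **A1b** real points.  `push_cast`, `Finset.sum_congr`. -/
theorem k3e2_qd_real (D : K3bQd n) (x : Fin n → ℝ) : D.ev (k3bC x) = (D.evR x : ℂ) := by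
  unfold K3bQd.ev K3bQd.evR k3bC
  push_cast
  rfl

/-- **A1c** -/
theorem k3e2_ev_real (Q : K3bEq n) (x : Fin n → ℝ) (w : ℝ) : Q.ev (k3bC x) (w : ℂ) = (Q.evR x w : ℂ) := by
  unfold K3bEq.ev K3bEq.evR K3bEq.p1
  rw [k3e2_qd_real]
  unfold k3bC
  push_cast
  rfl

/-- **A1d** -/
theorem k3e2_dw_real (Q : K3bEq n) (x : Fin n → ℝ) (w : ℝ) : Q.dw (k3bC x) (w : ℂ) = (Q.dwR x w : ℂ) := by
  unfold K3bEq.dw K3bEq.dwR K3bEq.p1 k3bC
  push_cast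
  rfl

/-- **A1e** Taylor in `w` (exact). -/
theorem k3e2_taylor (Q : K3bEq n) (z : Fin n → ℂ) (w w' : ℂ) :
    Q.ev z w' = Q.ev z w + Q.dw z w * (w' - w) + (Q.c : ℂ) / 2 * (w' - w) ^ 2 ∧ Q.dw z w' = Q.dw z w + (Q.c : ℂ) * (w' - w) := by
  unfold K3bEq.ev K3bEq.dw
  constructor <;> ring

/-- **A1f** upper bound of a quadric. -/
theorem k3e2_qd_le (D : K3bQd n) (z : Fin n → ℂ) : ‖D.ev z‖ ≤ D.nm * (1 + ‖z‖) ^ 2 := by
  have hz : ∀ i, ‖z i‖ ≤ ‖z‖ := fun i => norm_le_pi_norm z i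
  have h0 : 0 ≤ ‖z‖ := norm_nonneg z
  have h1 : ‖∑ i, (D.c1 i : ℂ) * z i‖ ≤ (∑ i, |D.c1 i|) * ‖z‖ := by
    rw [Finset.sum_mul]
    refine (norm_sum_le _ _).trans (Finset.sum_le_sum fun i _ => ?_)
    rw [norm_mul, Complex.norm_real, Real.norm_eq_abs]
    exact mul_le_mul_of_nonneg_left (hz i) (abs_nonneg _)
  have h2 : ‖∑ i, ∑ j, (D.c2 i j : ℂ) * z i * z j‖ ≤ (∑ i, ∑ j, |D.c2 i j|) * ‖z‖ ^ 2 := by
    rw [Finset.sum_mul]
    refine (norm_sum_le _ _).trans (Finset.sum_le_sum fun i _ => ?_)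
    rw [Finset.sum_mul]
    refine (norm_sum_le _ _).trans (Finset.sum_le_sum fun j _ => ?_)
    rw [norm_mul, norm_mul, Complex.norm_real, Real.norm_eq_abs, mul_assoc, sq]
    exact mul_le_mul_of_nonneg_left (mul_le_mul (hz i) (hz j) (norm_nonneg _) h0) (abs_nonneg _)
  have s1 : 0 ≤ ∑ i, |D.c1 i| := Finset.sum_nonneg fun _ _ => abs_nonneg _
  have s2 : 0 ≤ ∑ i, ∑ j, |D.c2 i j| := Finset.sum_nonneg fun _ _ => Finset.sum_nonneg fun _ _ => abs_nonneg _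
  unfold K3bQd.ev K3bQd.nm
  calc ‖(D.c0 : ℂ) + ∑ i, (D.c1 i : ℂ) * z i + ∑ i, ∑ j, (D.c2 i j : ℂ) * z i * z j‖
      ≤ |D.c0| + (∑ i, |D.c1 i|) * ‖z‖ + (∑ i, ∑ j, |D.c2 i j|) * ‖z‖ ^ 2 := by
        refine (norm_add_le _ _).trans (add_le_add ((norm_add_le _ _).trans (add_le_add ?_ h1)) h2)
        rw [Complex.norm_real, Real.norm_eq_abs]
    _ ≤ (|D.c0| + ∑ i, |D.c1 i| + ∑ i, ∑ j, |D.c2 i j|) * (1 + ‖z‖) ^ 2 := by
        have a0 := abs_nonneg D.c0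
        nlinarith [mul_nonneg a0 h0, mul_nonneg s1 h0, mul_nonneg s2 h0, mul_nonneg a0 (sq_nonneg ‖z‖), mul_nonneg s1 (sq_nonneg ‖z‖)]

/-- **A1g** Lipschitz bound of a quadric. -/
theorem k3e2_qd_lip (D : K3bQd n) (z u : Fin n → ℂ) : ‖D.ev (z + u) - D.ev z‖ ≤ D.nm * (1 + 2 * ‖z‖ + ‖u‖) * ‖u‖ := by
  have hz : ∀ i, ‖z i‖ ≤ ‖z‖ := fun i => norm_le_pi_norm z i
  have hu : ∀ i, ‖u i‖ ≤ ‖u‖ := fun i => norm_le_pi_norm u i
  have h0 : 0 ≤ ‖z‖ := norm_nonneg z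
  have h0u : 0 ≤ ‖u‖ := norm_nonneg u
  have e : D.ev (z + u) - D.ev z = ∑ i, (D.c1 i : ℂ) * u i + ∑ i, ∑ j, (D.c2 i j : ℂ) * (z i * u j + u i * z j + u i * u j) := by
    unfold K3bQd.ev
    simp only [Pi.add_apply]
    have e1 : ∑ i, (D.c1 i : ℂ) * (z i + u i) = ∑ i, (D.c1 i : ℂ) * z i + ∑ i, (D.c1 i : ℂ) * u i := by
      rw [← Finset.sum_add_distrib]
      exact Finset.sum_congr rfl fun i _ => by ring
    have e2 : ∑ i, ∑ j, (D.c2 i j : ℂ) * (z i + u i) * (z j + u j) = ∑ i, ∑ j, (D.c2 i j : ℂ) * z i * z j + ∑ i, ∑ j, (D.c2 i j : ℂ) * (z i * u j + u i * z j + u i * u j) := by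
      rw [← Finset.sum_add_distrib]
      refine Finset.sum_congr rfl fun i _ => ?_
      rw [← Finset.sum_add_distrib]
      exact Finset.sum_congr rfl fun j _ => by ring
    rw [e1, e2]
    ring
  have h1 : ‖∑ i, (D.c1 i : ℂ) * u i‖ ≤ (∑ i, |D.c1 i|) * ‖u‖ := by
    rw [Finset.sum_mul]
    refine (norm_sum_le _ _).trans (Finset.sum_le_sum fun i _ => ?_)
    rw [norm_mul, Complex.norm_real, Real.norm_eq_abs]
    exact mul_le_mul_of_nonneg_left (hu i) (abs_nonneg _)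
  have h2 : ‖∑ i, ∑ j, (D.c2 i j : ℂ) * (z i * u j + u i * z j + u i * u j)‖ ≤ (∑ i, ∑ j, |D.c2 i j|) * ((2 * ‖z‖ + ‖u‖) * ‖u‖) := by
    rw [Finset.sum_mul]
    refine (norm_sum_le _ _).trans (Finset.sum_le_sum fun i _ => ?_)
    rw [Finset.sum_mul]
    refine (norm_sum_le _ _).trans (Finset.sum_le_sum fun j _ => ?_)
    rw [norm_mul, Complex.norm_real, Real.norm_eq_abs]
    refine mul_le_mul_of_nonneg_left ?_ (abs_nonneg _)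
    calc ‖z i * u j + u i * z j + u i * u j‖ ≤ ‖z i‖ * ‖u j‖ + ‖u i‖ * ‖z j‖ + ‖u i‖ * ‖u j‖ := by
          refine (norm_add_le _ _).trans (add_le_add ((norm_add_le _ _).trans ?_) ?_)
          · rw [norm_mul, norm_mul]
          · rw [norm_mul]
      _ ≤ ‖z‖ * ‖u‖ + ‖u‖ * ‖z‖ + ‖u‖ * ‖u‖ := by
          gcongr
          · exact hz i
          · exact hu j
          · exact hu i
          · exact hz j
          · exact hu i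
          · exact hu j
      _ = (2 * ‖z‖ + ‖u‖) * ‖u‖ := by ring
  have s1 : 0 ≤ ∑ i, |D.c1 i| := Finset.sum_nonneg fun _ _ => abs_nonneg _
  have s2 : 0 ≤ ∑ i, ∑ j, |D.c2 i j| := Finset.sum_nonneg fun _ _ => Finset.sum_nonneg fun _ _ => abs_nonneg _
  rw [e]
  unfold K3bQd.nm
  calc _ ≤ (∑ i, |D.c1 i|) * ‖u‖ + (∑ i, ∑ j, |D.c2 i j|) * ((2 * ‖z‖ + ‖u‖) * ‖u‖) := (norm_add_le _ _).trans (add_le_add h1 h2)
    _ ≤ (|D.c0| + ∑ i, |D.c1 i| + ∑ i, ∑ j, |D.c2 i j|) * (1 + 2 * ‖z‖ + ‖u‖) * ‖u‖ := by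
        have a0 := abs_nonneg D.c0
        have k : 0 ≤ 2 * ‖z‖ + ‖u‖ := by positivity
        have : (∑ i, |D.c1 i|) + (∑ i, ∑ j, |D.c2 i j|) * (2 * ‖z‖ + ‖u‖) ≤ (|D.c0| + ∑ i, |D.c1 i| + ∑ i, ∑ j, |D.c2 i j|) * (1 + 2 * ‖z‖ + ‖u‖) := by
          nlinarith [mul_nonneg a0 k, mul_nonneg s1 k]
        calc _ = ((∑ i, |D.c1 i|) + (∑ i, ∑ j, |D.c2 i j|) * (2 * ‖z‖ + ‖u‖)) * ‖u‖ := by ring
          _ ≤ _ := mul_le_mul_of_nonneg_right this h0u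

/-- **LEAF L-252-S3e2-A2** (a quadric on a complex line).  `q0 = D a`, `q1 = ∑ c1 v + ∑∑ c2 (a v + v a)`, `q2 = ∑∑ c2 v v`; `‖a i‖ ≤ ‖a‖` (`norm_le_pi_norm`);
the three bounds add up to `|c0| + ∑ |c1| (‖a‖ + ‖v‖) + ∑∑ |c2| (‖a‖ + ‖v‖)²`. -/
theorem k3e2_qd_line (D : K3bQd n) (a v : Fin n → ℂ) : ∃ q0 q1 q2 : ℂ, (∀ s : ℂ, D.ev (k3e2Ln a v s) = k3bQ q0 q1 q2 s) ∧
    ‖q0‖ + ‖q1‖ + ‖q2‖ ≤ D.nm * (1 + ‖a‖ + ‖v‖) ^ 2 := by
  have ha : ∀ i, ‖a i‖ ≤ ‖a‖ := fun i => norm_le_pi_norm a i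
  have hv : ∀ i, ‖v i‖ ≤ ‖v‖ := fun i => norm_le_pi_norm v i
  have h0 : 0 ≤ ‖a‖ := norm_nonneg a
  have h0v : 0 ≤ ‖v‖ := norm_nonneg v
  have gen1 : ∀ y : Fin n → ℂ, ∀ Y : ℝ, (∀ i, ‖y i‖ ≤ Y) → ‖∑ i, (D.c1 i : ℂ) * y i‖ ≤ (∑ i, |D.c1 i|) * Y := by
    intro y Y hy
    rw [Finset.sum_mul]
    refine (norm_sum_le _ _).trans (Finset.sum_le_sum fun i _ => ?_)
    rw [norm_mul, Complex.norm_real, Real.norm_eq_abs]
    exact mul_le_mul_of_nonneg_left (hy i) (abs_nonneg _)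
  have gen2 : ∀ y : Fin n → Fin n → ℂ, ∀ Y : ℝ, (∀ i j, ‖y i j‖ ≤ Y) → ‖∑ i, ∑ j, (D.c2 i j : ℂ) * y i j‖ ≤ (∑ i, ∑ j, |D.c2 i j|) * Y := by
    intro y Y hy
    rw [Finset.sum_mul]
    refine (norm_sum_le _ _).trans (Finset.sum_le_sum fun i _ => ?_)
    rw [Finset.sum_mul]
    refine (norm_sum_le _ _).trans (Finset.sum_le_sum fun j _ => ?_)
    rw [norm_mul, Complex.norm_real, Real.norm_eq_abs]
    exact mul_le_mul_of_nonneg_left (hy i j) (abs_nonneg _)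
  refine ⟨(D.c0 : ℂ) + ∑ i, (D.c1 i : ℂ) * a i + ∑ i, ∑ j, (D.c2 i j : ℂ) * (a i * a j),
    ∑ i, (D.c1 i : ℂ) * v i + ∑ i, ∑ j, (D.c2 i j : ℂ) * (a i * v j + v i * a j), ∑ i, ∑ j, (D.c2 i j : ℂ) * (v i * v j), ?_, ?_⟩
  · intro s
    unfold K3bQd.ev k3bQ k3e2Ln
    simp only [add_mul, Finset.sum_mul, mul_add]
    have e1 : ∑ i, ((D.c1 i : ℂ) * a i + (D.c1 i : ℂ) * (s * v i)) = ∑ i, (D.c1 i : ℂ) * a i + ∑ i, (D.c1 i : ℂ) * v i * s := by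
      rw [← Finset.sum_add_distrib]
      exact Finset.sum_congr rfl fun i _ => by ring
    have e2 : ∑ i, ∑ j, ((D.c2 i j : ℂ) * a i * a j + (D.c2 i j : ℂ) * (s * v i) * a j + ((D.c2 i j : ℂ) * a i * (s * v j) + (D.c2 i j : ℂ) * (s * v i) * (s * v j)))
        = ∑ i, ∑ j, (D.c2 i j : ℂ) * (a i * a j) + ∑ i, ∑ j, ((D.c2 i j : ℂ) * (a i * v j) * s + (D.c2 i j : ℂ) * (v i * a j) * s) + ∑ i, ∑ j, (D.c2 i j : ℂ) * (v i * v j) * s ^ 2 := by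
      rw [← Finset.sum_add_distrib, ← Finset.sum_add_distrib]
      refine Finset.sum_congr rfl fun i _ => ?_
      rw [← Finset.sum_add_distrib, ← Finset.sum_add_distrib]
      exact Finset.sum_congr rfl fun j _ => by ring
    rw [e1, e2]
    ring
  · have b0 : ‖(D.c0 : ℂ) + ∑ i, (D.c1 i : ℂ) * a i + ∑ i, ∑ j, (D.c2 i j : ℂ) * (a i * a j)‖ ≤ |D.c0| + (∑ i, |D.c1 i|) * ‖a‖ + (∑ i, ∑ j, |D.c2 i j|) * (‖a‖ * ‖a‖) := by
      refine (norm_add_le _ _).trans (add_le_add ((norm_add_le _ _).trans (add_le_add ?_ (gen1 a _ ha))) (gen2 _ _ fun i j => ?_))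
      · rw [Complex.norm_real, Real.norm_eq_abs]
      · rw [norm_mul]
        exact mul_le_mul (ha i) (ha j) (norm_nonneg _) h0
    have b1 : ‖∑ i, (D.c1 i : ℂ) * v i + ∑ i, ∑ j, (D.c2 i j : ℂ) * (a i * v j + v i * a j)‖ ≤ (∑ i, |D.c1 i|) * ‖v‖ + (∑ i, ∑ j, |D.c2 i j|) * (2 * ‖a‖ * ‖v‖) := by
      refine (norm_add_le _ _).trans (add_le_add (gen1 v _ hv) (gen2 _ _ fun i j => ?_))
      calc ‖a i * v j + v i * a j‖ ≤ ‖a i‖ * ‖v j‖ + ‖v i‖ * ‖a j‖ := by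
            refine (norm_add_le _ _).trans ?_
            rw [norm_mul, norm_mul]
        _ ≤ ‖a‖ * ‖v‖ + ‖v‖ * ‖a‖ := by
            gcongr
            · exact ha i
            · exact hv j
            · exact hv i
            · exact ha j
        _ = 2 * ‖a‖ * ‖v‖ := by ring
    have b2 : ‖∑ i, ∑ j, (D.c2 i j : ℂ) * (v i * v j)‖ ≤ (∑ i, ∑ j, |D.c2 i j|) * (‖v‖ * ‖v‖) := by
      refine gen2 _ _ fun i j => ?_
      rw [norm_mul]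
      exact mul_le_mul (hv i) (hv j) (norm_nonneg _) h0v
    have s1 : 0 ≤ ∑ i, |D.c1 i| := Finset.sum_nonneg fun _ _ => abs_nonneg _
    have s2 : 0 ≤ ∑ i, ∑ j, |D.c2 i j| := Finset.sum_nonneg fun _ _ => Finset.sum_nonneg fun _ _ => abs_nonneg _
    have a0 := abs_nonneg D.c0
    unfold K3bQd.nm
    have k : 0 ≤ ‖a‖ + ‖v‖ := by positivity
    calc _ ≤ |D.c0| + (∑ i, |D.c1 i|) * (‖a‖ + ‖v‖) + (∑ i, ∑ j, |D.c2 i j|) * (‖a‖ + ‖v‖) ^ 2 := by nlinarith [b0, b1, b2]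
      _ ≤ _ := by
        nlinarith [mul_nonneg a0 k, mul_nonneg s1 k, mul_nonneg s2 k, mul_nonneg a0 (sq_nonneg (‖a‖ + ‖v‖)), mul_nonneg s1 (sq_nonneg (‖a‖ + ‖v‖))]

theorem k3e2_class_aux (c cQ p00 p01 p02 p10 p11 q00 q01 q02 q10 q11 : ℂ) : ∃ g0 g1 : ℂ[X], g0.natDegree ≤ 4 ∧ g1.natDegree ≤ 4 ∧ ∀ s w : ℂ,
    (p00 + p01 * s + p02 * s ^ 2) + (p10 + p11 * s) * w + c / 2 * w ^ 2 = 0 →
    ((p10 + p11 * s) ^ 2 - 2 * c * (p00 + p01 * s + p02 * s ^ 2)) * ((q00 + q01 * s + q02 * s ^ 2) + (q10 + q11 * s) * w + cQ / 2 * w ^ 2)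
      = g0.eval s + g1.eval s * ((p10 + p11 * s) + c * w) := by
  by_cases hc : c = 0
  · subst hc
    refine ⟨((C p10 + C p11 * X) ^ 2) * (C q00 + C q01 * X + C q02 * X ^ 2) + C (cQ / 2) * (C p00 + C p01 * X + C p02 * X ^ 2) ^ 2,
      - (C q10 + C q11 * X) * (C p00 + C p01 * X + C p02 * X ^ 2), by compute_degree, (by compute_degree; norm_num), fun s w h => ?_⟩
    simp only [eval_add, eval_mul, eval_pow, eval_C, eval_X, eval_neg]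
    linear_combination ((q10 + q11 * s) * (p10 + p11 * s) + cQ / 2 * ((p10 + p11 * s) * w - (p00 + p01 * s + p02 * s ^ 2))) * h
  · refine ⟨((C p10 + C p11 * X) ^ 2 - C (2 * c) * (C p00 + C p01 * X + C p02 * X ^ 2)) *
        ((C q00 + C q01 * X + C q02 * X ^ 2) - C c⁻¹ * (C q10 + C q11 * X) * (C p10 + C p11 * X)
          + C (cQ / 2 * c⁻¹ ^ 2) * (((C p10 + C p11 * X) ^ 2 - C (2 * c) * (C p00 + C p01 * X + C p02 * X ^ 2)) + (C p10 + C p11 * X) ^ 2)),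
      ((C p10 + C p11 * X) ^ 2 - C (2 * c) * (C p00 + C p01 * X + C p02 * X ^ 2)) *
        (C c⁻¹ * (C q10 + C q11 * X) - C (cQ * c⁻¹ ^ 2) * (C p10 + C p11 * X)), by compute_degree, (by compute_degree; norm_num), fun s w h => ?_⟩
    simp only [eval_add, eval_mul, eval_pow, eval_C, eval_X, eval_sub]
    have hci : c * c⁻¹ = 1 := mul_inv_cancel₀ hc
    grind

/-- the affine part on a line -/
theorem k3e2_p1_line (P : K3bEq n) (a v : Fin n → ℂ) (s : ℂ) :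
    P.p1 (k3e2Ln a v s) = ((P.a0 : ℂ) + ∑ i, (P.a1 i : ℂ) * a i) + (∑ i, (P.a1 i : ℂ) * v i) * s := by
  unfold K3bEq.p1 k3e2Ln
  rw [Finset.sum_mul, add_assoc, ← Finset.sum_add_distrib]
  congr 1
  exact Finset.sum_congr rfl fun i _ => by ring

/-- **LEAF L-252-S3e2-A3** (evaluations on a root are in the one-radical class).  Write `p0, p1, q0, q1` for the restrictions to the line (polynomials in `s` of degree `≤ 2, 1, 2, 1`: A2 for `p0`, `q0`; `p1`, `q1` directly), `D = p1² - 2 c p0`, `r = P_w = p1 + c w`,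
`r² = D` on a root (`K3bEq.dsc_ev`).
`c = 0`: `p1 w = - p0`, so `D q1 w = - q1 p0 r`, `D w² = p0²`:   `g0 = D q0 + (c_Q/2) p0²`, `g1 = - q1 p0`.
`c ≠ 0`: `w = (r - p1)/c`, `w² = (D - 2 p1 r + p1²)/c²`:   `g0 = D (q0 - q1 p1/c + c_Q (D + p1²)/(2c²))`, `g1 = D (q1/c - c_Q p1/c²)`. -/
theorem k3e2_class (P Q : K3bEq n) (a v : Fin n → ℂ) : ∃ g0 g1 : ℂ[X], g0.natDegree ≤ 4 ∧ g1.natDegree ≤ 4 ∧ ∀ s w : ℂ, P.ev (k3e2Ln a v s) w = 0 →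
    P.dsc.ev (k3e2Ln a v s) * Q.ev (k3e2Ln a v s) w = g0.eval s + g1.eval s * P.dw (k3e2Ln a v s) w := by
  obtain ⟨p00, p01, p02, hp0, -⟩ := k3e2_qd_line P.p0 a v
  obtain ⟨q00, q01, q02, hq0, -⟩ := k3e2_qd_line Q.p0 a v
  obtain ⟨g0, g1, h0, h1, h⟩ := k3e2_class_aux (P.c : ℂ) (Q.c : ℂ) p00 p01 p02 ((P.a0 : ℂ) + ∑ i, (P.a1 i : ℂ) * a i) (∑ i, (P.a1 i : ℂ) * v i)
    q00 q01 q02 ((Q.a0 : ℂ) + ∑ i, (Q.a1 i : ℂ) * a i) (∑ i, (Q.a1 i : ℂ) * v i)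
  refine ⟨g0, g1, h0, h1, fun s w hw => ?_⟩
  have e1 : P.ev (k3e2Ln a v s) w = (p00 + p01 * s + p02 * s ^ 2) + (((P.a0 : ℂ) + ∑ i, (P.a1 i : ℂ) * a i) + (∑ i, (P.a1 i : ℂ) * v i) * s) * w + (P.c : ℂ) / 2 * w ^ 2 := by
    unfold K3bEq.ev
    rw [hp0, k3e2_p1_line]
    rfl
  have e2 : Q.ev (k3e2Ln a v s) w = (q00 + q01 * s + q02 * s ^ 2) + (((Q.a0 : ℂ) + ∑ i, (Q.a1 i : ℂ) * a i) + (∑ i, (Q.a1 i : ℂ) * v i) * s) * w + (Q.c : ℂ) / 2 * w ^ 2 := by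
    unfold K3bEq.ev
    rw [hq0, k3e2_p1_line]
    rfl
  have e3 : P.dw (k3e2Ln a v s) w = (((P.a0 : ℂ) + ∑ i, (P.a1 i : ℂ) * a i) + (∑ i, (P.a1 i : ℂ) * v i) * s) + (P.c : ℂ) * w := by
    unfold K3bEq.dw
    rw [k3e2_p1_line]
  have e4 : P.dsc.ev (k3e2Ln a v s) = (((P.a0 : ℂ) + ∑ i, (P.a1 i : ℂ) * a i) + (∑ i, (P.a1 i : ℂ) * v i) * s) ^ 2 - 2 * (P.c : ℂ) * (p00 + p01 * s + p02 * s ^ 2) := by
    rw [P.dsc_ev _ w, e1, e3]
    ring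
  rw [e1] at hw
  rw [e4, e2, e3]
  exact h s w hw

/-- **LEAF L-252-S3e2-A4** (nearest root, complex, NO smallness condition).  `G = Q (z, w)`, `u = Q_w (z, w)`, `D = u² - 2 c G`.  `c = 0`: `ω = w - G/u`, `u² = D`.
`c ≠ 0`: take `r² = D` (`IsAlgClosed.exists_pow_nat_eq` / `Complex.cpow`), `ω_± = w + (-u ± r)/c` are roots, `(-u + r)(-u - r) = 2 c G`, and `‖u + r‖² + ‖u - r‖² = 2‖u‖² + 2‖r‖²` gives a sign with `‖u ± r‖ ≥ ‖r‖`;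
for it `‖ω_± - w‖ ‖r‖ ≤ ‖ω_± - w‖ ‖u ± r‖ = 2 ‖G‖`.   `‖r‖ = √‖D‖`. -/
theorem k3e2_near_root (Q : K3bEq n) (z : Fin n → ℂ) (w : ℂ) (hD : Q.dsc.ev z ≠ 0) :
    ∃ ω : ℂ, Q.ev z ω = 0 ∧ ‖w - ω‖ * Real.sqrt ‖Q.dsc.ev z‖ ≤ 2 * ‖Q.ev z w‖ := by
  have hdsc := Q.dsc_ev z w
  obtain ⟨G, hG⟩ : ∃ G : ℂ, G = Q.ev z w := ⟨_, rfl⟩
  obtain ⟨u, hu⟩ : ∃ u : ℂ, u = Q.dw z w := ⟨_, rfl⟩
  rw [← hG, ← hu] at hdsc
  rw [← hG]
  by_cases hc : (Q.c : ℂ) = 0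
  · rw [hc, mul_zero, zero_mul, sub_zero] at hdsc
    have hu0 : u ≠ 0 := by
      intro h0
      rw [h0] at hdsc
      exact hD (by rw [hdsc]; ring)
    refine ⟨w - G / u, ?_, ?_⟩
    · rw [(k3e2_taylor Q z w (w - G / u)).1, ← hG, ← hu, hc]
      field_simp
      ring
    · rw [hdsc, norm_pow, Real.sqrt_sq (norm_nonneg _), sub_sub_cancel, norm_div, div_mul_cancel₀ _ (norm_ne_zero_iff.2 hu0)]
      linarith [norm_nonneg G]
  · obtain ⟨r, hr⟩ := IsAlgClosed.exists_pow_nat_eq (Q.dsc.ev z) (n := 2) (by norm_num)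
    have hsq : Real.sqrt ‖Q.dsc.ev z‖ = ‖r‖ := by
      rw [← hr, norm_pow, Real.sqrt_sq (norm_nonneg _)]
    have hrel : u ^ 2 - r ^ 2 = 2 * (Q.c : ℂ) * G := by
      rw [hr, hdsc]
      ring
    have hroot : ∀ ρ : ℂ, ρ ^ 2 = r ^ 2 → Q.ev z (w + (-u + ρ) / (Q.c : ℂ)) = 0 := by
      intro ρ hρ
      rw [(k3e2_taylor Q z w (w + (-u + ρ) / (Q.c : ℂ))).1, ← hG, ← hu, add_sub_cancel_left]
      have h2 : G = (u ^ 2 - ρ ^ 2) / (2 * (Q.c : ℂ)) := by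
        rw [hρ, hrel]
        field_simp
      rw [h2]
      field_simp
      ring
    have hprod : ∀ ρ : ℂ, ρ ^ 2 = r ^ 2 → ‖(-u + ρ) / (Q.c : ℂ)‖ * ‖u + ρ‖ = 2 * ‖G‖ := by
      intro ρ hρ
      rw [← norm_mul]
      have : (-u + ρ) / (Q.c : ℂ) * (u + ρ) = -(2 * G) := by
        have h2 : (-u + ρ) * (u + ρ) = -(2 * (Q.c : ℂ) * G) := by
          rw [← hrel, ← hρ]
          ring
        rw [div_mul_eq_mul_div, h2]
        field_simp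
      rw [this, norm_neg, norm_mul]
      simp
    have hmax : ‖r‖ ≤ ‖u + r‖ ∨ ‖r‖ ≤ ‖u + -r‖ := by
      by_contra hcon
      rw [not_or, not_le, not_le] at hcon
      have h3 : ‖(2 : ℂ) * r‖ ≤ ‖u + r‖ + ‖u + -r‖ := by
        have : (2 : ℂ) * r = (u + r) - (u + -r) := by ring
        rw [this]
        exact norm_sub_le _ _
      rw [norm_mul] at h3
      have : ‖(2 : ℂ)‖ = 2 := by simp
      rw [this] at h3
      linarith [hcon.1, hcon.2]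
    rcases hmax with h1 | h1
    · refine ⟨w + (-u + r) / (Q.c : ℂ), hroot r rfl, ?_⟩
      rw [hsq, ← hprod r rfl, sub_add_cancel_left, norm_neg]
      exact mul_le_mul_of_nonneg_left h1 (norm_nonneg _)
    · refine ⟨w + (-u + -r) / (Q.c : ℂ), hroot (-r) (by ring), ?_⟩
      rw [hsq, ← hprod (-r) (by ring), sub_add_cancel_left, norm_neg]
      exact mul_le_mul_of_nonneg_left h1 (norm_nonneg _)

/-- **LEAF L-252-S3e2-A5** (at most two roots).  If `ω1 ≠ ω2` are roots then `Q (z, ω) = (c/2)(ω - ω1)(ω - ω2)` and `c ≠ 0` ...; or: at a root `Q_w² = D`, so `p1 + c ω ∈ {r, -r}`; `c = 0` forces `p1 ≠ 0` and one root. -/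
theorem k3e2_two_roots (Q : K3bEq n) (z : Fin n → ℂ) (hD : Q.dsc.ev z ≠ 0) : ∃ ω1 ω2 : ℂ, ∀ ω : ℂ, Q.ev z ω = 0 → ω = ω1 ∨ ω = ω2 := by
  by_cases hc : (Q.c : ℂ) = 0
  · refine ⟨-(Q.p0.ev z) / Q.p1 z, -(Q.p0.ev z) / Q.p1 z, fun ω hω => Or.inl ?_⟩
    have h1 := Q.dsc_ev z ω
    rw [hω, mul_zero, sub_zero] at h1
    have h2 : Q.p1 z ≠ 0 := by
      intro h0
      apply hD
      rw [h1]
      unfold K3bEq.dw
      rw [h0, hc]
      ring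
    unfold K3bEq.ev at hω
    rw [hc] at hω
    rw [eq_div_iff h2]
    linear_combination hω
  · obtain ⟨r, hr⟩ := IsAlgClosed.exists_pow_nat_eq (Q.dsc.ev z) (n := 2) (by norm_num)
    refine ⟨(r - Q.p1 z) / (Q.c : ℂ), (-r - Q.p1 z) / (Q.c : ℂ), fun ω hω => ?_⟩
    have h1 := Q.dsc_ev z ω
    rw [hω, mul_zero, sub_zero, ← hr] at h1
    rcases sq_eq_sq_iff_eq_or_eq_neg.1 h1 with h2 | h2
    · left
      rw [eq_div_iff hc, h2]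
      unfold K3bEq.dw
      ring
    · right
      rw [eq_div_iff hc, h2, neg_neg]
      unfold K3bEq.dw
      ring

/-- **A1h** Taylor bounds from a nearby root: `‖Q_w (z, ω)‖² = ‖D z‖`. -/
theorem k3e2_eval_near (Q : K3bEq n) (z : Fin n → ℂ) (w ω : ℂ) (B Δ cb : ℝ) (hω : Q.ev z ω = 0) (hB : ‖Q.dsc.ev z‖ ≤ B ^ 2) (hB0 : 0 ≤ B) (hΔ : ‖w - ω‖ ≤ Δ) (hc : |Q.c| ≤ cb) :
    ‖Q.ev z w‖ ≤ B * Δ + cb / 2 * Δ ^ 2 ∧ ‖Q.dw z w‖ ≤ B + cb * Δ := by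
  have hd : ‖Q.dw z ω‖ ≤ B := by
    have := Q.dsc_ev z ω
    rw [hω, mul_zero, sub_zero] at this
    rw [this, norm_pow] at hB
    exact (abs_le_of_sq_le_sq' hB hB0).2
  obtain ⟨t1, t2⟩ := k3e2_taylor Q z ω w
  have hn := norm_nonneg (w - ω)
  have hcb : 0 ≤ cb := (abs_nonneg _).trans hc
  have hcn : ‖(Q.c : ℂ)‖ ≤ cb := by rwa [Complex.norm_real, Real.norm_eq_abs]
  constructor
  · rw [t1, hω, zero_add]
    refine (norm_add_le _ _).trans (add_le_add ?_ ?_)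
    · rw [norm_mul]
      exact mul_le_mul hd hΔ hn hB0
    · rw [norm_mul, norm_pow, norm_div]
      have : ‖(2 : ℂ)‖ = 2 := by simp
      rw [this]
      gcongr
  · rw [t2]
    refine (norm_add_le _ _).trans (add_le_add hd ?_)
    rw [norm_mul]
    exact mul_le_mul hcn hΔ hn hcb

/-- **A1k** the nodes are near the anchor. -/
theorem k3e2_node_dist (α : Fin n → ℂ) (h : ℝ) (hh : 0 ≤ h) (κ : Fin n → Fin 11) : ‖k3e2Node α h κ - α‖ ≤ 5 * h := by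
  rw [pi_norm_le_iff_of_nonneg (by positivity)]
  intro i
  unfold k3e2Node
  simp only [Pi.sub_apply, add_sub_cancel_left]
  rw [Complex.norm_real, Real.norm_eq_abs, abs_mul, abs_of_nonneg hh, mul_comm]
  have h1 : ((κ i : ℕ) : ℝ) ≤ 10 := by
    have := (κ i).2
    exact_mod_cast Nat.lt_succ_iff.mp this
  have h2 : (0 : ℝ) ≤ ((κ i : ℕ) : ℝ) := Nat.cast_nonneg _
  have : |((κ i : ℕ) : ℝ) - 5| ≤ 5 := abs_le.2 ⟨by linarith, by linarith⟩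
  exact mul_le_mul_of_nonneg_right this hh

/-- **A1i** -/
theorem k3e2_safe_mono (D : K3bQd n) (z0 α : Fin n → ℂ) (σ : ℂ) (A A' : ℝ) (hA : 0 < A) (h : A ≤ A') (hs : K3bSafe D z0 α σ A) : K3bSafe D z0 α σ A' := by
  intro s hsp u hu
  have h1 : 1 / A' ≤ 1 / A := one_div_le_one_div_of_le hA h
  exact h1.trans (hs s hsp u (hu.trans h1))

/-- **A1j** (`s = 0`, `s = 1` are on the path). -/
theorem k3e2_safe_low (D : K3bQd n) (z0 α : Fin n → ℂ) (σ : ℂ) (A : ℝ) (hs : K3bSafe D z0 α σ A) : K3e2Low D z0 A ∧ K3e2Low D α A := by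
  constructor
  · intro u hu
    have := hs 0 (Or.inl (left_mem_segment ℝ 0 σ)) u hu
    have e : k3bPt z0 α 0 = z0 := by
      funext i
      simp [k3bPt]
    rwa [e] at this
  · intro u hu
    have := hs 1 (Or.inr (right_mem_segment ℝ σ 1)) u hu
    have e : k3bPt z0 α 1 = α := by
      funext i
      simp [k3bPt]
    rwa [e] at this

/-- **A6a** -/
theorem k3e2_bd_of_nm (D : K3bQd n) (A : ℝ) (h : D.nm ≤ A) : K3e2Bd D (81 * A) := by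
  intro z hz
  have h0 : 0 ≤ D.nm := by
    unfold K3bQd.nm
    have s1 : 0 ≤ ∑ i, |D.c1 i| := Finset.sum_nonneg fun _ _ => abs_nonneg _
    have s2 : 0 ≤ ∑ i, ∑ j, |D.c2 i j| := Finset.sum_nonneg fun _ _ => Finset.sum_nonneg fun _ _ => abs_nonneg _
    have := abs_nonneg D.c0
    linarith
  have h1 : (1 + ‖z‖) ^ 2 ≤ 81 := by nlinarith [norm_nonneg z]
  calc ‖D.ev z‖ ≤ D.nm * (1 + ‖z‖) ^ 2 := k3e2_qd_le D z
    _ ≤ D.nm * 81 := mul_le_mul_of_nonneg_left h1 h0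
    _ ≤ 81 * A := by linarith

/-- **A6b** -/
theorem k3e2_bd_mono (D : K3bQd n) (A A' : ℝ) (h : A ≤ A') (hb : K3e2Bd D A) : K3e2Bd D A' := fun z hz => (hb z hz).trans h

/-- three values bound the coefficients of a quadratic -/
theorem k3e2_quad_coef (q0 q1 q2 : ℂ) (A : ℝ) (h0 : ‖k3bQ q0 q1 q2 0‖ ≤ A) (h1 : ‖k3bQ q0 q1 q2 1‖ ≤ A) (h2 : ‖k3bQ q0 q1 q2 (-1)‖ ≤ A) :
    ‖q0‖ ≤ A ∧ ‖q1‖ ≤ A ∧ ‖q2‖ ≤ 2 * A := by
  have e0 : q0 = k3bQ q0 q1 q2 0 := by unfold k3bQ; ring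
  have e1 : q1 = (k3bQ q0 q1 q2 1 - k3bQ q0 q1 q2 (-1)) / 2 := by unfold k3bQ; ring
  have e2 : q2 = (k3bQ q0 q1 q2 1 + k3bQ q0 q1 q2 (-1)) / 2 - k3bQ q0 q1 q2 0 := by unfold k3bQ; ring
  have t2 : ‖(2 : ℂ)‖ = 2 := by simp
  refine ⟨by rw [e0]; exact h0, ?_, ?_⟩
  · rw [e1, norm_div, t2]
    have := norm_sub_le (k3bQ q0 q1 q2 1) (k3bQ q0 q1 q2 (-1))
    linarith
  · rw [e2]
    refine (norm_sub_le _ _).trans ?_
    rw [norm_div, t2]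
    have := norm_add_le (k3bQ q0 q1 q2 1) (k3bQ q0 q1 q2 (-1))
    linarith

/-- **A6c** (a bounded quadric on a line).  `k3e2_qd_line` gives `q0 q1 q2`; `q0 = Q 0`, `q1 = (Q 1 - Q (-1))/2`, `q2 = (Q 1 + Q (-1))/2 - Q 0`, and `‖a‖, ‖a ± v‖ ≤ 8`. -/
theorem k3e2_bd_line (D : K3bQd n) (A : ℝ) (hb : K3e2Bd D A) (a v : Fin n → ℂ) (ha : ‖a‖ ≤ 4) (hv : ‖v‖ ≤ 4) : ∃ q0 q1 q2 : ℂ, (∀ s : ℂ, D.ev (k3e2Ln a v s) = k3bQ q0 q1 q2 s) ∧
    ‖q0‖ + ‖q1‖ + ‖q2‖ ≤ 4 * A := by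
  obtain ⟨q0, q1, q2, hq, -⟩ := k3e2_qd_line D a v
  refine ⟨q0, q1, q2, hq, ?_⟩
  have key : ∀ s : ℂ, ‖s‖ ≤ 1 → ‖k3bQ q0 q1 q2 s‖ ≤ A := by
    intro s hs
    rw [← hq s]
    refine hb _ ?_
    have e : k3e2Ln a v s = a + s • v := by
      funext i
      simp [k3e2Ln]
    rw [e]
    calc ‖a + s • v‖ ≤ ‖a‖ + ‖s‖ * ‖v‖ := (norm_add_le _ _).trans (by rw [norm_smul])
      _ ≤ 4 + 1 * 4 := add_le_add ha (mul_le_mul hs hv (norm_nonneg _) zero_le_one)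
      _ = 8 := by norm_num
  obtain ⟨b0, b1, b2⟩ := k3e2_quad_coef q0 q1 q2 A (key 0 (by simp)) (key 1 (by simp)) (key (-1) (by simp))
  linarith

/-- **A6d** (Lipschitz).  `u ≠ 0`: the line `a = z`, `v = u / ‖u‖`; as in A6c `‖q1‖ ≤ A`, `‖q2‖ ≤ 2A` (`‖z ± v‖ ≤ 8`); `D (z + u) - D z = q1 t + q2 t²`, `t = ‖u‖ ≤ 1`. -/
theorem k3e2_bd_lip (D : K3bQd n) (A : ℝ) (hb : K3e2Bd D A) (z u : Fin n → ℂ) (hz : ‖z‖ ≤ 7) (hu : ‖u‖ ≤ 1) : ‖D.ev (z + u) - D.ev z‖ ≤ 3 * A * ‖u‖ := by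
  by_cases h0 : u = 0
  · subst h0
    simp
  have hpos : 0 < ‖u‖ := norm_pos_iff.2 h0
  set t : ℝ := ‖u‖ with ht
  set v : Fin n → ℂ := ((t : ℂ)⁻¹) • u with hvdef
  have hv : ‖v‖ = 1 := by
    rw [hvdef, norm_smul, norm_inv, Complex.norm_real, Real.norm_eq_abs, abs_of_pos hpos]
    exact inv_mul_cancel₀ hpos.ne'
  obtain ⟨q0, q1, q2, hq, -⟩ := k3e2_qd_line D z v
  have key : ∀ s : ℂ, ‖s‖ ≤ 1 → ‖k3bQ q0 q1 q2 s‖ ≤ A := by
    intro s hs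
    rw [← hq s]
    refine hb _ ?_
    have e : k3e2Ln z v s = z + s • v := by
      funext i
      simp [k3e2Ln]
    rw [e]
    calc ‖z + s • v‖ ≤ ‖z‖ + ‖s‖ * ‖v‖ := (norm_add_le _ _).trans (by rw [norm_smul])
      _ ≤ 7 + 1 * 1 := add_le_add hz (mul_le_mul hs hv.le (norm_nonneg _) zero_le_one)
      _ = 8 := by norm_num
  obtain ⟨b0, b1, b2⟩ := k3e2_quad_coef q0 q1 q2 A (key 0 (by simp)) (key 1 (by simp)) (key (-1) (by simp))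
  have e1 : z + u = k3e2Ln z v (t : ℂ) := by
    funext i
    have : (t : ℂ) ≠ 0 := by exact_mod_cast hpos.ne'
    simp only [k3e2Ln, hvdef, Pi.add_apply, Pi.smul_apply, smul_eq_mul]
    field_simp
  have e2 : z = k3e2Ln z v 0 := by
    funext i
    simp [k3e2Ln]
  have e3 : D.ev (z + u) - D.ev z = q1 * (t : ℂ) + q2 * (t : ℂ) ^ 2 := by
    rw [e1, hq]
    conv_lhs => rw [e2, hq]
    unfold k3bQ
    ring
  rw [e3]
  have nt : ‖(t : ℂ)‖ = t := by rw [Complex.norm_real, Real.norm_eq_abs, abs_of_pos hpos]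
  calc ‖q1 * (t : ℂ) + q2 * (t : ℂ) ^ 2‖ ≤ ‖q1‖ * t + ‖q2‖ * t ^ 2 := by
        refine (norm_add_le _ _).trans ?_
        rw [norm_mul, norm_mul, norm_pow, nt]
    _ ≤ A * t + 2 * A * t := by
        have hA : 0 ≤ A := (norm_nonneg _).trans b0
        have : t ^ 2 ≤ t := by nlinarith
        have h2 : ‖q2‖ * t ^ 2 ≤ 2 * A * t := mul_le_mul b2 this (by positivity) (by positivity)
        have h1 : ‖q1‖ * t ≤ A * t := mul_le_mul_of_nonneg_right b1 hpos.le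
        linarith
    _ = 3 * A * t := by ring

/-- **A6e** -/
theorem k3e2_low_shift (D : K3bQd n) (α β : Fin n → ℂ) (A : ℝ) (hA : 0 < A) (h : K3e2Low D α A) (hβ : ‖β - α‖ ≤ 1 / (2 * A)) : K3e2Low D β (2 * A) := by
  intro u hu
  have e : β + u = α + ((β - α) + u) := by abel
  have h1 : ‖(β - α) + u‖ ≤ 1 / A := by
    refine (norm_add_le _ _).trans ?_
    have : 1 / (2 * A) + 1 / (2 * A) = 1 / A := by field_simp; norm_num
    linarith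
  have h2 : 1 / (2 * A) ≤ 1 / A := one_div_le_one_div_of_le hA (by linarith)
  rw [e]
  exact h2.trans (h _ h1)

/-! ## 5. Bins and lists -/

theorem k3e2_floor_nbr (x y : ℝ) (h : |x - y| ≤ 1) : |⌊x⌋ - ⌊y⌋| ≤ 1 := by
  have hk := abs_le.mp h
  have a1 := Int.floor_le x
  have a2 := Int.lt_floor_add_one x
  have b1 := Int.floor_le y
  have b2 := Int.lt_floor_add_one y
  rw [abs_le]
  constructor
  · have : ((⌊y⌋ : ℤ) : ℝ) < (⌊x⌋ : ℤ) + 1 + 1 := by linarith [hk.1, hk.2]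
    have h3 : ⌊y⌋ < ⌊x⌋ + 1 + 1 := by exact_mod_cast this
    omega
  · have : ((⌊x⌋ : ℤ) : ℝ) < (⌊y⌋ : ℤ) + 1 + 1 := by linarith [hk.1, hk.2]
    have h3 : ⌊x⌋ < ⌊y⌋ + 1 + 1 := by exact_mod_cast this
    omega

/-- **LEAF L-252-S3e2-L1a** -/
theorem k3e2_bin_same (h : ℝ) (hh : 0 < h) (w w' : ℂ) (e : k3e2Bin h w = k3e2Bin h w') : ‖w - w'‖ ≤ 2 * h := by
  have e1 : ⌊w.re / h⌋ = ⌊w'.re / h⌋ := congrArg Prod.fst e
  have e2 : ⌊w.im / h⌋ = ⌊w'.im / h⌋ := congrArg Prod.snd e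
  have h1 := Int.abs_sub_lt_one_of_floor_eq_floor e1
  have h2 := Int.abs_sub_lt_one_of_floor_eq_floor e2
  rw [← sub_div, abs_div, abs_of_pos hh, div_lt_one hh] at h1 h2
  have h3 := Complex.norm_le_abs_re_add_abs_im (w - w')
  rw [Complex.sub_re, Complex.sub_im] at h3
  linarith

/-- **L1b** -/
theorem k3e2_bin_nbr (h : ℝ) (hh : 0 < h) (w w' : ℂ) (e : ‖w - w'‖ ≤ h) : |(k3e2Bin h w).1 - (k3e2Bin h w').1| ≤ 1 ∧ |(k3e2Bin h w).2 - (k3e2Bin h w').2| ≤ 1 := by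
  have h1 : |(w - w').re| ≤ h := (Complex.abs_re_le_norm _).trans e
  have h2 : |(w - w').im| ≤ h := (Complex.abs_im_le_norm _).trans e
  rw [Complex.sub_re] at h1
  rw [Complex.sub_im] at h2
  constructor
  · refine k3e2_floor_nbr _ _ ?_
    rw [← sub_div, abs_div, abs_of_pos hh, div_le_one hh]
    exact h1
  · refine k3e2_floor_nbr _ _ ?_
    rw [← sub_div, abs_div, abs_of_pos hh, div_le_one hh]
    exact h2

/-- **L1c** -/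
theorem k3e2_list_mem (Q : K3bEq n) (α : Fin n → ℂ) (hn h : ℝ) (hh : 0 < h) (f : (Fin n → ℂ) → ℂ)
    (hc : ∀ κ, ∃ ω : ℂ, Q.ev (k3e2Node α hn κ) ω = 0 ∧ ‖f (k3e2Node α hn κ) - ω‖ ≤ h) : k3e2Tup α hn h f ∈ k3e2List Q α hn h := by
  intro κ
  obtain ⟨ω, h1, h2⟩ := hc κ
  exact ⟨ω, h1, k3e2_bin_nbr h hh _ _ h2⟩

/-- **L1d** a root function has an own tuple. -/
theorem k3e2_own_mem (P : K3bEq n) (α : Fin n → ℂ) (hn h : ℝ) (f : (Fin n → ℂ) → ℂ) (hf : ∀ κ, P.ev (k3e2Node α hn κ) (f (k3e2Node α hn κ)) = 0) : k3e2Tup α hn h f ∈ k3e2Own P α hn h := by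
  intro κ
  exact ⟨f (k3e2Node α hn κ), hf κ, rfl⟩

/-- **LEAF L-252-S3e2-L2** (03 l.1399-1411: genuine list knowledge).  A5: per node `≤ 2` roots, `9` neighbours; the list lies in `Fintype.piFinset` of sets of `≤ 18` elements; `Fintype.card (Fin n → Fin 11) = 11^n`. -/
theorem k3e2_list_card (Q : K3bEq n) (α : Fin n → ℂ) (hn h : ℝ) (hD : ∀ κ, Q.dsc.ev (k3e2Node α hn κ) ≠ 0) :
    (k3e2List Q α hn h).Finite ∧ (k3e2List Q α hn h).ncard ≤ 18 ^ (11 ^ n) := by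
  classical
  choose ω1 ω2 hω using fun κ => k3e2_two_roots Q (k3e2Node α hn κ) (hD κ)
  obtain ⟨nb, hnb⟩ : ∃ nb : ℤ × ℤ → Finset (ℤ × ℤ), ∀ p, nb p = Finset.Icc (p.1 - 1) (p.1 + 1) ×ˢ Finset.Icc (p.2 - 1) (p.2 + 1) := ⟨_, fun _ => rfl⟩
  have hnbc : ∀ p, (nb p).card = 9 := by
    intro p
    rw [hnb, Finset.card_product, Int.card_Icc, Int.card_Icc]
    have e1 : p.1 + 1 + 1 - (p.1 - 1) = 3 := by ring
    have e2 : p.2 + 1 + 1 - (p.2 - 1) = 3 := by ring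
    rw [e1, e2]
    rfl
  have hsub : k3e2List Q α hn h ⊆ ↑(Fintype.piFinset fun κ => nb (k3e2Bin h (ω1 κ)) ∪ nb (k3e2Bin h (ω2 κ))) := by
    intro b hb
    rw [Finset.mem_coe, Fintype.mem_piFinset]
    intro κ
    obtain ⟨ω, h1, h2, h3⟩ := hb κ
    have hmem : b κ ∈ nb (k3e2Bin h ω) := by
      rw [hnb, Finset.mem_product, Finset.mem_Icc, Finset.mem_Icc]
      rw [abs_le] at h2 h3
      refine ⟨⟨?_, ?_⟩, ⟨?_, ?_⟩⟩ <;> linarith [h2.1, h2.2, h3.1, h3.2]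
    rw [Finset.mem_union]
    rcases hω κ ω h1 with rfl | rfl
    · exact Or.inl hmem
    · exact Or.inr hmem
  refine ⟨(Finset.finite_toSet _).subset hsub, ?_⟩
  refine (Set.ncard_le_ncard hsub (Finset.finite_toSet _)).trans ?_
  rw [Set.ncard_coe_finset, Fintype.card_piFinset]
  calc ∏ κ : Fin n → Fin 11, (nb (k3e2Bin h (ω1 κ)) ∪ nb (k3e2Bin h (ω2 κ))).card ≤ ∏ _κ : Fin n → Fin 11, 18 := by
        refine Finset.prod_le_prod' fun κ _ => ?_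
        refine (Finset.card_union_le _ _).trans ?_
        rw [hnbc, hnbc]
    _ = 18 ^ (11 ^ n) := by
        rw [Finset.prod_const, Finset.card_univ, Fintype.card_fun, Fintype.card_fin, Fintype.card_fin]

/-- **LEAF L-252-S3e2-L3** (03 l.1533-1539). -/
theorem k3e2_own_card (Q : K3bEq n) (α : Fin n → ℂ) (hn h : ℝ) (hD : ∀ κ, Q.dsc.ev (k3e2Node α hn κ) ≠ 0) :
    (k3e2Own Q α hn h).Finite ∧ (k3e2Own Q α hn h).ncard ≤ 2 ^ (11 ^ n) := by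
  classical
  choose ω1 ω2 hω using fun κ => k3e2_two_roots Q (k3e2Node α hn κ) (hD κ)
  have hsub : k3e2Own Q α hn h ⊆ ↑(Fintype.piFinset fun κ => ({k3e2Bin h (ω1 κ), k3e2Bin h (ω2 κ)} : Finset (ℤ × ℤ))) := by
    intro b hb
    rw [Finset.mem_coe, Fintype.mem_piFinset]
    intro κ
    obtain ⟨ω, h1, h2⟩ := hb κ
    rw [Finset.mem_insert, Finset.mem_singleton, h2]
    rcases hω κ ω h1 with rfl | rfl
    · exact Or.inl rfl
    · exact Or.inr rfl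
  refine ⟨(Finset.finite_toSet _).subset hsub, ?_⟩
  refine (Set.ncard_le_ncard hsub (Finset.finite_toSet _)).trans ?_
  rw [Set.ncard_coe_finset, Fintype.card_piFinset]
  calc ∏ κ : Fin n → Fin 11, ({k3e2Bin h (ω1 κ), k3e2Bin h (ω2 κ)} : Finset (ℤ × ℤ)).card ≤ ∏ _κ : Fin n → Fin 11, 2 :=
        Finset.prod_le_prod' fun κ _ => Finset.card_le_two
    _ = 2 ^ (11 ^ n) := by
        rw [Finset.prod_const, Finset.card_univ, Fintype.card_fun, Fintype.card_fin, Fintype.card_fin]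

/-- **L1e** the source equation is eligible for its own tuple (03 l.1427-1428). -/
theorem k3e2_src_elig (P : K3bEq n) (z0 α : Fin n → ℂ) (σ : ℂ) (A δ hn h : ℝ) (hA : 1 ≤ A) (hn0 : 0 ≤ hn) (hn1 : 5 * hn < 1 / A) (hbd : K3e2Bd P.dsc A) (hc : |P.c| ≤ 1 / δ)
    (hs : K3bSafe P.dsc z0 α σ A) (f : (Fin n → ℂ) → ℂ) (hf : K3e2Root P (k3bTubeN z0 α σ (1 / A)) f) : K3e2Elig P α hn h A δ (k3e2Tup α hn h f) := by
  refine ⟨hbd, ?_, hc, k3e2_own_mem P α hn h f fun κ => hf.2 _ ?_⟩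
  · have := (k3e2_safe_low P.dsc z0 α σ A hs).2 0 (by rw [norm_zero]; positivity)
    rwa [add_zero] at this
  · refine ⟨1, Or.inr (right_mem_segment ℝ σ 1), ?_⟩
    have e : k3bPt z0 α 1 = α := by
      funext i
      simp [k3bPt]
    rw [e]
    exact (k3e2_node_dist α hn hn0 κ).trans_lt hn1

end

end Claimed.Agent.R252
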