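import Claimed.Agent.R252.S3e2.Alg

/-!
# ROW 252 (S0492), unit S3e2, file 2: THE CONTINUED SOURCE BRANCH AND THE TRANSFER OF EVALUATIONS      CONTRACT (sub-architect helper133, chief helper70)   -- KEEP
PAPER-FREE.  Everything is reduced to `k3b_cont` (`S3b/ContContract.lean`, `k = 4`, `11` nodes) on complex lines.  Overview: header of `S3e2/Contract.lean`.  The `sorry`s are the leaves `L-252-S3e2-B*`, `-T*`.  Prove IN PLACE.
-/

set_option autoImplicit false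

namespace Claimed.Agent.R252

open MeasureTheory Polynomial
open scoped ENNReal BigOperators

noncomputable section

variable {n : ℕ}

/-! ## 2. Branches -/

theorem k3e2_qd_contDiff (D : K3bQd n) : ContDiff ℝ 1 D.ev := by
  unfold K3bQd.ev
  fun_prop

theorem k3e2_p1_cont (P : K3bEq n) : Continuous P.p1 := by
  unfold K3bEq.p1
  fun_prop

theorem k3e2_dsc_eq (P : K3bEq n) (z : Fin n → ℂ) : P.dsc.ev z = P.p1 z ^ 2 - 2 * (P.c : ℂ) * P.p0.ev z := by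
  rw [P.dsc_ev z 0]
  unfold K3bEq.dw K3bEq.ev
  ring

/-- the tube of a convex set of parameters is a thickening -/
theorem k3e2_tube_thick (z0 α : Fin n → ℂ) (S : Set ℂ) (ρ : ℝ) :
    {z | ∃ s ∈ S, ‖z - k3bPt z0 α s‖ < ρ} = Metric.thickening ρ (k3bPt z0 α '' S) := by
  ext z
  rw [Metric.mem_thickening_iff]
  constructor
  · rintro ⟨s, hs, h⟩
    exact ⟨_, ⟨s, hs, rfl⟩, by rwa [dist_eq_norm]⟩
  · rintro ⟨_, ⟨s, hs, rfl⟩, h⟩
    exact ⟨s, hs, by rwa [dist_eq_norm] at h⟩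

theorem k3e2_pt_convex (z0 α : Fin n → ℂ) (S : Set ℂ) (hS : Convex ℝ S) : Convex ℝ (k3bPt z0 α '' S) := by
  rintro _ ⟨s, hs, rfl⟩ _ ⟨s', hs', rfl⟩ a b ha hb hab
  refine ⟨a • s + b • s', hS hs hs' ha hb hab, ?_⟩
  funext i
  have hab' : (a : ℂ) + (b : ℂ) = 1 := by exact_mod_cast hab
  simp only [k3bPt, Pi.add_apply, Pi.smul_apply, Complex.real_smul]
  linear_combination (-(z0 i)) * hab'

/-- **LEAF L-252-S3e2-B1** (the continued branch exists).  The tube is `K₁ ∪ K₂`, `K_i = {z | ∃ s ∈ segment, ‖z - k3bPt z0 α s‖ < 1/A}` convex (`s ↦ k3bPt z0 α s` is affine, balls are convex), open (union of balls), `k3bPt z0 α σ ∈ K₁ ∩ K₂`.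
`k3b_sqrt_two` with `D = P.dsc.ev` (a polynomial map: `ContDiff`), `rs = P.dw z0 w0` (`K3bEq.dsc_ev`) gives `r`.   `c ≠ 0`: `f = (r - p1)/c`;   `c = 0`: `f = - p0/p1`, `p1² = D ≠ 0`. -/
theorem k3e2_branch (P : K3bEq n) (z0 α : Fin n → ℂ) (σ : ℂ) (A : ℝ) (hA : 0 < A) (hs : K3bSafe P.dsc z0 α σ A) (w0 : ℂ) (h0 : P.ev z0 w0 = 0) :
    ∃ f : (Fin n → ℂ) → ℂ, K3e2Root P (k3bTubeN z0 α σ (1 / A)) f ∧ f z0 = w0 := by
  have hρ : 0 < 1 / A := by positivity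
  have hne : ∀ z ∈ k3bTubeN z0 α σ (1 / A), P.dsc.ev z ≠ 0 := by
    rintro z ⟨s, hs', hz⟩ h0'
    have h1 := hs s hs' (z - k3bPt z0 α s) hz.le
    rw [add_sub_cancel, h0', norm_zero] at h1
    linarith
  have hz0 : z0 ∈ {z | ∃ s ∈ segment ℝ (0 : ℂ) σ, ‖z - k3bPt z0 α s‖ < 1 / A} := by
    refine ⟨0, left_mem_segment ℝ 0 σ, ?_⟩
    have e : k3bPt z0 α 0 = z0 := by
      funext i
      simp [k3bPt]
    rw [e, sub_self, norm_zero]
    exact hρ
  have htube : k3bTubeN z0 α σ (1 / A) = {z | ∃ s ∈ segment ℝ (0 : ℂ) σ, ‖z - k3bPt z0 α s‖ < 1 / A} ∪ {z | ∃ s ∈ segment ℝ σ (1 : ℂ), ‖z - k3bPt z0 α s‖ < 1 / A} := by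
    ext z
    constructor
    · rintro ⟨s, hs' | hs', hz⟩
      · exact Or.inl ⟨s, hs', hz⟩
      · exact Or.inr ⟨s, hs', hz⟩
    · rintro (⟨s, hs', hz⟩ | ⟨s, hs', hz⟩)
      · exact ⟨s, Or.inl hs', hz⟩
      · exact ⟨s, Or.inr hs', hz⟩
  by_cases hc : (P.c : ℂ) = 0
  · have hp1 : ∀ z ∈ k3bTubeN z0 α σ (1 / A), P.p1 z ≠ 0 := by
      intro z hz h0'
      apply hne z hz
      rw [k3e2_dsc_eq, h0', hc]
      ring
    refine ⟨fun z => -(P.p0.ev z) / P.p1 z, ⟨?_, fun z hz => ?_⟩, ?_⟩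
    · exact ((k3e2_qd_contDiff P.p0).continuous.neg.continuousOn).div (k3e2_p1_cont P).continuousOn hp1
    · unfold K3bEq.ev
      rw [hc]
      have := hp1 z hz
      field_simp
      ring
    · have h1 := hp1 z0 (by rw [htube]; exact Or.inl hz0)
      unfold K3bEq.ev at h0
      rw [hc] at h0
      show -(P.p0.ev z0) / P.p1 z0 = w0
      rw [div_eq_iff h1]
      linear_combination -h0
  · obtain ⟨r, hr1, hr2, hr3⟩ := k3b_sqrt_two P.dsc.ev (k3e2_qd_contDiff P.dsc)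
      {z | ∃ s ∈ segment ℝ (0 : ℂ) σ, ‖z - k3bPt z0 α s‖ < 1 / A} {z | ∃ s ∈ segment ℝ σ (1 : ℂ), ‖z - k3bPt z0 α s‖ < 1 / A}
      (by rw [k3e2_tube_thick]; exact (k3e2_pt_convex z0 α _ (convex_segment _ _)).thickening _)
      (by rw [k3e2_tube_thick]; exact (k3e2_pt_convex z0 α _ (convex_segment _ _)).thickening _)
      (by rw [k3e2_tube_thick]; exact Metric.isOpen_thickening)
      (by rw [k3e2_tube_thick]; exact Metric.isOpen_thickening)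
      ⟨k3bPt z0 α σ, ⟨σ, right_mem_segment ℝ 0 σ, by rw [sub_self, norm_zero]; exact hρ⟩, ⟨σ, left_mem_segment ℝ σ 1, by rw [sub_self, norm_zero]; exact hρ⟩⟩
      (by rw [← htube]; exact hne) z0 hz0 (P.dw z0 w0) (by rw [P.dsc_ev z0 w0, h0]; ring)
    rw [← htube] at hr1 hr2
    refine ⟨fun z => (r z - P.p1 z) / (P.c : ℂ), ⟨?_, fun z hz => ?_⟩, ?_⟩
    · exact (hr1.sub (k3e2_p1_cont P).continuousOn).div_const _
    · have h1 := hr2 z hz
      rw [k3e2_dsc_eq] at h1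
      unfold K3bEq.ev
      have h2 : P.p0.ev z = (P.p1 z ^ 2 - r z ^ 2) / (2 * (P.c : ℂ)) := by
        rw [h1]
        field_simp
        ring
      rw [h2]
      field_simp
      ring
    · show (r z0 - P.p1 z0) / (P.c : ℂ) = w0
      rw [hr3]
      unfold K3bEq.dw
      field_simp
      ring

/-- **LEAF L-252-S3e2-B2** (uniqueness).  `k3b_sqrt_unique` for `r = P.dw z (f z)`, `r' = P.dw z (g z)`; then `c ≠ 0`: cancel; `c = 0`: `p1 ≠ 0`, the root is unique. -/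
theorem k3e2_root_unique (P : K3bEq n) (Ω : Set (Fin n → ℂ)) (hΩ : IsPreconnected Ω) (hne : ∀ z ∈ Ω, P.dsc.ev z ≠ 0) (f g : (Fin n → ℂ) → ℂ) (hf : K3e2Root P Ω f) (hg : K3e2Root P Ω g)
    (z0 : Fin n → ℂ) (hz : z0 ∈ Ω) (h : f z0 = g z0) : Set.EqOn f g Ω := by
  have hdw : ∀ u : (Fin n → ℂ) → ℂ, ContinuousOn u Ω → ContinuousOn (fun z => P.dw z (u z)) Ω := by
    intro u hu
    unfold K3bEq.dw
    exact (k3e2_p1_cont P).continuousOn.add (continuousOn_const.mul hu)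
  have hsq : ∀ u : (Fin n → ℂ) → ℂ, K3e2Root P Ω u → ∀ z ∈ Ω, P.dw z (u z) ^ 2 = P.dsc.ev z := by
    intro u hu z hz
    rw [P.dsc_ev z (u z), hu.2 z hz]
    ring
  have key := k3b_sqrt_unique Ω hΩ (fun z => P.dw z (f z)) (fun z => P.dw z (g z)) (hdw f hf.1) (hdw g hg.1)
    (fun z hz => by rw [hsq f hf z hz, hsq g hg z hz])
    (fun z hz h0 => hne z hz (by rw [← hsq f hf z hz, h0]; ring)) z0 hz (by rw [h])
  intro z hz
  have h1 : P.dw z (f z) = P.dw z (g z) := key hz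
  by_cases hc : (P.c : ℂ) = 0
  · have hp1 : P.p1 z ≠ 0 := by
      intro h0'
      apply hne z hz
      rw [k3e2_dsc_eq, h0', hc]
      ring
    have e1 := hf.2 z hz
    have e2 := hg.2 z hz
    unfold K3bEq.ev at e1 e2
    rw [hc] at e1 e2
    apply mul_left_cancel₀ hp1
    linear_combination e1 - e2
  · unfold K3bEq.dw at h1
    apply mul_left_cancel₀ hc
    linear_combination h1

/-! ## 3. Transfer of evaluations      (all radii are EXPLICIT) -/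

/-- continuity of the line -/
theorem k3e2_ln_cont (a v : Fin n → ℂ) : Continuous (k3e2Ln a v) := by
  unfold k3e2Ln
  fun_prop

/-- a point near an end point of the path is in the tube -/
theorem k3e2_tube_e0 (e0 σ e1 x : ℂ) (ρ : ℝ) (h : ‖x - e0‖ < ρ) : x ∈ k3bTube e0 σ e1 ρ := by
  unfold k3bTube
  rw [Metric.mem_thickening_iff]
  exact ⟨e0, Or.inl (left_mem_segment ℝ e0 σ), by rwa [dist_eq_norm]⟩

theorem k3e2_tube_e1 (e0 σ e1 x : ℂ) (ρ : ℝ) (h : ‖x - e1‖ < ρ) : x ∈ k3bTube e0 σ e1 ρ := by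
  unfold k3bTube
  rw [Metric.mem_thickening_iff]
  exact ⟨e1, Or.inr (right_mem_segment ℝ σ e1), by rwa [dist_eq_norm]⟩

/-- upper bound of a quadratic -/
theorem k3e2_Q_le (q0 q1 q2 s : ℂ) (B : ℝ) (hq : ‖q0‖ + ‖q1‖ + ‖q2‖ ≤ B) (hs : ‖s‖ ≤ 4) : ‖k3bQ q0 q1 q2 s‖ ≤ 16 * B := by
  unfold k3bQ
  have h0 := norm_nonneg q0
  have h1 := norm_nonneg q1
  have h2 := norm_nonneg q2
  have hs0 := norm_nonneg s
  calc ‖q0 + q1 * s + q2 * s ^ 2‖ ≤ ‖q0‖ + ‖q1‖ * ‖s‖ + ‖q2‖ * ‖s‖ ^ 2 := by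
        refine (norm_add_le _ _).trans (add_le_add ((norm_add_le _ _).trans ?_) ?_)
        · rw [norm_mul]
        · rw [norm_mul, norm_pow]
    _ ≤ ‖q0‖ + ‖q1‖ * 4 + ‖q2‖ * 16 := by
        have : ‖s‖ ^ 2 ≤ 16 := by nlinarith
        have a1 := mul_le_mul_of_nonneg_left hs h1
        have a2 := mul_le_mul_of_nonneg_left this h2
        linarith
    _ ≤ 16 * B := by linarith

/-- **LEAF L-252-S3e2-T1: one line.**  `k3e2_bd_line` gives `q0 q1 q2` with `‖q0‖ + ‖q1‖ + ‖q2‖ ≤ 4 A`; `r s = P.dw (line s) (ω s)` is a branch (`K3bBr`; `K3bEq.dsc_ev`) on the tube; `k3e2_class` gives `g0 g1`; `k3b_cont 4` with `A' = 4 A` (smaller tube `1/(4A)`, nodes and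
target within `1/(2A') = 1/(8A)`) for `dsc * Q`;   `1/A ≤ ‖dsc‖ ≤ 4 A * 21` on the tube (`‖s‖ ≤ 4`) converts between `Q` and `dsc * Q`.   (`Fin 11 = Fin (2 * 4 + 3)` by `rfl`.) -/
theorem k3e2_line (n : ℕ) : ∃ C : ℝ, 1 ≤ C ∧ ∀ (A η : ℝ), 2 ≤ A → 0 < η → η ≤ 1 → ∀ (P Q : K3bEq n) (a v : Fin n → ℂ) (e0 σ e1 : ℂ), ‖a‖ ≤ 4 → ‖v‖ ≤ 4 → ‖e0‖ ≤ 3 → ‖σ‖ ≤ 3 → ‖e1‖ ≤ 3 →
    K3e2Bd P.dsc A → (∀ s ∈ k3bTube e0 σ e1 (1 / A), 1 / A ≤ ‖P.dsc.ev (k3e2Ln a v s)‖) →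
    ∀ ω : ℂ → ℂ, ContinuousOn ω (k3bTube e0 σ e1 (1 / A)) → (∀ s ∈ k3bTube e0 σ e1 (1 / A), P.ev (k3e2Ln a v s) (ω s) = 0) →
    ∀ x : Fin 11 → ℂ, (∀ i, ‖x i - e0‖ ≤ 1 / (8 * A)) → (∀ i l, i ≠ l → η ≤ ‖x i - x l‖) → ∀ M : ℝ, (∀ i, ‖Q.ev (k3e2Ln a v (x i)) (ω (x i))‖ ≤ M) →
    ∀ s : ℂ, ‖s - e1‖ ≤ 1 / (8 * A) → ‖Q.ev (k3e2Ln a v s) (ω s)‖ ≤ C * (A / η) ^ C * M := by
  obtain ⟨C0, hC0, H⟩ := k3b_cont 4
  refine ⟨64 * C0 + 3 * C0 + 2, by linarith, ?_⟩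
  intro A η hA hη hη1 P Q a v e0 σ e1 ha hv he0 hσ he1 hbd hlow ω hωc hω x hx hsep M hM s hs
  have hA0 : (0 : ℝ) < A := by linarith
  have hM0 : 0 ≤ M := (norm_nonneg _).trans (hM 0)
  obtain ⟨q0, q1, q2, hq, hqb⟩ := k3e2_bd_line P.dsc A hbd a v ha hv
  obtain ⟨g0, g1, hg0, hg1, hcl⟩ := k3e2_class P Q a v
  have h14 : 1 / (4 * A) ≤ 1 / A := one_div_le_one_div_of_le hA0 (by linarith)
  have h18 : 1 / (8 * A) < 1 / A := one_div_lt_one_div_of_lt hA0 (by linarith)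
  have e28 : 1 / (2 * (4 * A)) = 1 / (8 * A) := by ring_nf
  have hsub : k3bTube e0 σ e1 (1 / (4 * A)) ⊆ k3bTube e0 σ e1 (1 / A) := Metric.thickening_mono h14 _
  set r : ℂ → ℂ := fun s => P.dw (k3e2Ln a v s) (ω s) with hr
  have hrsq : ∀ s ∈ k3bTube e0 σ e1 (1 / A), r s ^ 2 = k3bQ q0 q1 q2 s := by
    intro s hs
    have := P.dsc_ev (k3e2Ln a v s) (ω s)
    rw [hω s hs, mul_zero, sub_zero, hq] at this
    exact this.symm
  have hbr : K3bBr q0 q1 q2 (k3bTube e0 σ e1 (1 / (4 * A))) r := by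
    refine ⟨?_, fun s hs => hrsq s (hsub hs)⟩
    have c1 : Continuous fun s => P.p1 (k3e2Ln a v s) := (k3e2_p1_cont P).comp (k3e2_ln_cont a v)
    exact c1.continuousOn.add (continuousOn_const.mul (hωc.mono hsub))
  have hlow' : ∀ s ∈ k3bTube e0 σ e1 (1 / (4 * A)), 1 / (4 * A) ≤ ‖k3bQ q0 q1 q2 s‖ := by
    intro s hs
    rw [← hq]
    exact h14.trans (hlow s (hsub hs))
  have hxt : ∀ i, x i ∈ k3bTube e0 σ e1 (1 / A) := fun i => k3e2_tube_e0 e0 σ e1 (x i) _ ((hx i).trans_lt h18)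
  have hst : s ∈ k3bTube e0 σ e1 (1 / A) := k3e2_tube_e1 e0 σ e1 s _ (hs.trans_lt h18)
  have h181 : 1 / (8 * A) ≤ 1 := by
    rw [div_le_one (by positivity)]
    linarith
  have hnode : ∀ i, ‖g0.eval (x i) + g1.eval (x i) * r (x i)‖ ≤ 64 * A * M := by
    intro i
    rw [← hcl (x i) (ω (x i)) (hω _ (hxt i)), norm_mul, hq]
    have hxn : ‖x i‖ ≤ 4 := by
      have : ‖x i‖ ≤ ‖x i - e0‖ + ‖e0‖ := by
        have := norm_add_le (x i - e0) e0
        rwa [sub_add_cancel] at this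
      linarith [hx i]
    have := k3e2_Q_le q0 q1 q2 (x i) (4 * A) hqb hxn
    calc _ ≤ (16 * (4 * A)) * M := mul_le_mul this (hM i) (norm_nonneg _) (by positivity)
      _ = 64 * A * M := by ring
  have key := H (4 * A) η (by linarith) hη hη1 q0 q1 q2 e0 σ e1 he0 hσ he1 hqb hlow' r hbr g0 g1 hg0 hg1 x (fun i => by rw [e28]; exact hx i) hsep (64 * A * M) hnode s (by rw [e28]; exact hs)
  rw [← hcl s (ω s) (hω _ hst), norm_mul] at key
  have hD : 1 / A ≤ ‖P.dsc.ev (k3e2Ln a v s)‖ := hlow s hst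
  set G : ℝ := ‖Q.ev (k3e2Ln a v s) (ω s)‖ with hG
  have hG0 : 0 ≤ G := norm_nonneg _
  have h1 : G ≤ A * (C0 * (4 * A / η) ^ C0 * (64 * A * M)) := by
    have : 1 / A * G ≤ C0 * (4 * A / η) ^ C0 * (64 * A * M) := (mul_le_mul_of_nonneg_right hD hG0).trans key
    have h2 : G = A * (1 / A * G) := by field_simp
    rw [h2]
    exact mul_le_mul_of_nonneg_left this hA0.le
  -- arithmetic
  set y : ℝ := A / η with hy
  have hy2 : 2 ≤ y := by
    rw [hy, le_div_iff₀ hη]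
    nlinarith
  have hy0 : 0 < y := by linarith
  have hAy : A ≤ y := by
    rw [hy, le_div_iff₀ hη]
    nlinarith
  have e4 : 4 * A / η = 4 * y := by rw [hy]; ring
  have p1 : (4 * y) ^ C0 ≤ y ^ (3 * C0) := by
    have : 4 * y ≤ y ^ (3 : ℝ) := by
      have : y ^ (3 : ℝ) = y ^ 3 := by norm_cast
      rw [this]
      nlinarith [mul_pos hy0 hy0]
    calc (4 * y) ^ C0 ≤ (y ^ (3 : ℝ)) ^ C0 := Real.rpow_le_rpow (by positivity) this (by linarith)
      _ = y ^ (3 * C0) := by rw [← Real.rpow_mul hy0.le]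
  have p2 : A * A ≤ y ^ (2 : ℝ) := by
    have : y ^ (2 : ℝ) = y ^ 2 := by norm_cast
    rw [this]
    nlinarith
  have p3 : y ^ (3 * C0) * y ^ (2 : ℝ) = y ^ (3 * C0 + 2) := by rw [← Real.rpow_add hy0]
  have p4 : y ^ (3 * C0 + 2) ≤ y ^ (64 * C0 + 3 * C0 + 2) := Real.rpow_le_rpow_of_exponent_le (by linarith) (by linarith)
  have hyp : 0 ≤ y ^ (64 * C0 + 3 * C0 + 2) := by positivity
  calc G ≤ A * (C0 * (4 * A / η) ^ C0 * (64 * A * M)) := h1
    _ = 64 * C0 * ((4 * y) ^ C0 * (A * A)) * M := by rw [e4]; ring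
    _ ≤ 64 * C0 * (y ^ (3 * C0) * y ^ (2 : ℝ)) * M := by
        have : (4 * y) ^ C0 * (A * A) ≤ y ^ (3 * C0) * y ^ (2 : ℝ) := mul_le_mul p1 p2 (by positivity) (by positivity)
        gcongr
    _ ≤ 64 * C0 * y ^ (64 * C0 + 3 * C0 + 2) * M := by
        rw [p3]
        gcongr
    _ ≤ (64 * C0 + 3 * C0 + 2) * y ^ (64 * C0 + 3 * C0 + 2) * M := by
        have : 64 * C0 ≤ 64 * C0 + 3 * C0 + 2 := by linarith
        gcongr

theorem k3e2_path_norm {σ : ℂ} (hσ : ‖σ‖ ≤ 2) {s : ℂ} (hs : s ∈ k3bPath 0 σ 1) : ‖s‖ ≤ 2 := by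
  have h0 : (0 : ℂ) ∈ Metric.closedBall (0 : ℂ) 2 := by simp
  have h1 : (1 : ℂ) ∈ Metric.closedBall (0 : ℂ) 2 := by simp
  have h2 : σ ∈ Metric.closedBall (0 : ℂ) 2 := by simpa using hσ
  have : s ∈ Metric.closedBall (0 : ℂ) 2 := by
    rcases hs with hs | hs
    · exact (convex_closedBall (0 : ℂ) 2).segment_subset h0 h2 hs
    · exact (convex_closedBall (0 : ℂ) 2).segment_subset h2 h1 hs
  simpa using this

/-- equally spaced nodes -/
theorem k3e2_nodes_sep (e0 : ℂ) (η : ℝ) (hη : 0 ≤ η) (c : ℝ) (i l : Fin 11) (h : i ≠ l) :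
    η ≤ ‖(e0 + ((η * (((i : ℕ) : ℝ) - c) : ℝ) : ℂ)) - (e0 + ((η * (((l : ℕ) : ℝ) - c) : ℝ) : ℂ))‖ := by
  have e : (e0 + ((η * (((i : ℕ) : ℝ) - c) : ℝ) : ℂ)) - (e0 + ((η * (((l : ℕ) : ℝ) - c) : ℝ) : ℂ))
      = ((η * (((i : ℕ) : ℝ) - ((l : ℕ) : ℝ)) : ℝ) : ℂ) := by
    push_cast
    ring
  rw [e, Complex.norm_real, Real.norm_eq_abs, abs_mul, abs_of_nonneg hη]
  have h1 : (1 : ℤ) ≤ |((i : ℕ) : ℤ) - ((l : ℕ) : ℤ)| := by
    apply Int.one_le_abs
    intro h0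
    apply h
    apply Fin.ext
    omega
  have h2 : (1 : ℝ) ≤ |((i : ℕ) : ℝ) - ((l : ℕ) : ℝ)| := by exact_mod_cast h1
  nlinarith

theorem k3e2_fin11_le (i : Fin 11) : ((i : ℕ) : ℝ) ≤ 10 := by
  have : (i : ℕ) ≤ 10 := by omega
  exact_mod_cast this

/-- the common part of T2a, T2b: T1 with slack `12 A` on a line which shadows the broken path. -/
theorem k3e2_transfer (n : ℕ) : ∃ C : ℝ, 1 ≤ C ∧ ∀ (A r : ℝ), 2 ≤ A → 0 < r → r ≤ 1 → ∀ (P Q : K3bEq n) (z0 α : Fin n → ℂ) (σ : ℂ), ‖σ‖ ≤ 2 → K3e2Bd P.dsc A → K3bSafe P.dsc z0 α σ A →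
    ∀ f : (Fin n → ℂ) → ℂ, K3e2Root P (k3bTubeN z0 α σ (1 / A)) f → ∀ (a v : Fin n → ℂ) (e0 e1 : ℂ), ‖a‖ ≤ 4 → ‖v‖ ≤ 4 → ‖e0‖ ≤ 3 → ‖e1‖ ≤ 3 → k3bPath e0 σ e1 = k3bPath 0 σ 1 →
    (∀ sp ∈ k3bPath 0 σ 1, ∀ s : ℂ, ‖s - sp‖ < 1 / (12 * A) → ‖k3e2Ln a v s - k3bPt z0 α sp‖ < 1 / A) →
    ∀ M : ℝ, (∀ s : ℂ, ‖s - e0‖ ≤ r / 4 → ‖Q.ev (k3e2Ln a v s) (f (k3e2Ln a v s))‖ ≤ M) →
    ‖Q.ev (k3e2Ln a v e1) (f (k3e2Ln a v e1))‖ ≤ C * (A / r) ^ C * M := by
  obtain ⟨C₁, hC₁, H⟩ := k3e2_line n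
  refine ⟨16 * C₁, by linarith, ?_⟩
  intro A r hA hr0 hr1 P Q z0 α σ hσ hBd hSafe f hf a v e0 e1 ha hv he0 he1 hpath hshadow M hM
  have hA0 : 0 < A := by linarith
  set η : ℝ := r / (960 * A) with hη
  have hη0 : 0 < η := by positivity
  have hηr : 960 * A * η = r := by rw [hη]; field_simp
  have hη1 : η ≤ 1 := by nlinarith
  have hM0 : 0 ≤ M := (norm_nonneg _).trans (hM e0 (by rw [sub_self, norm_zero]; positivity))
  have key : ∀ s ∈ k3bTube e0 σ e1 (1 / (12 * A)), ∃ sp ∈ k3bPath 0 σ 1, ‖k3e2Ln a v s - k3bPt z0 α sp‖ < 1 / A := by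
    intro s hs
    unfold k3bTube at hs
    rw [hpath, Metric.mem_thickening_iff] at hs
    obtain ⟨sp, hsp, hd⟩ := hs
    exact ⟨sp, hsp, hshadow sp hsp s (by rwa [← dist_eq_norm])⟩
  have hmaps : Set.MapsTo (k3e2Ln a v) (k3bTube e0 σ e1 (1 / (12 * A))) (k3bTubeN z0 α σ (1 / A)) := by
    intro s hs
    obtain ⟨sp, hsp, h⟩ := key s hs
    exact ⟨sp, hsp, h⟩
  have hx10 : ∀ i : Fin 11, ‖(e0 + ((η * (((i : ℕ) : ℝ) - 0) : ℝ) : ℂ)) - e0‖ ≤ 10 * η := by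
    intro i
    rw [add_sub_cancel_left, Complex.norm_real, Real.norm_eq_abs, sub_zero,
      abs_of_nonneg (by positivity)]
    nlinarith [k3e2_fin11_le i]
  have h := H (12 * A) η (by linarith) hη0 hη1 P Q a v e0 σ e1 ha hv he0 (hσ.trans (by norm_num)) he1
    (fun z hz => (hBd z hz).trans (by linarith))
    (fun s hs => by
      obtain ⟨sp, hsp, h⟩ := key s hs
      have h1 := hSafe sp hsp (k3e2Ln a v s - k3bPt z0 α sp) h.le
      rw [add_sub_cancel] at h1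
      refine le_trans ?_ h1
      apply one_div_le_one_div_of_le hA0
      linarith)
    (fun s => f (k3e2Ln a v s)) (hf.1.comp (k3e2_ln_cont a v).continuousOn hmaps)
    (fun s hs => hf.2 _ (hmaps hs))
    (fun i => e0 + ((η * (((i : ℕ) : ℝ) - 0) : ℝ) : ℂ))
    (fun i => (hx10 i).trans (by
      rw [le_div_iff₀ (by positivity)]
      nlinarith))
    (fun i l hil => k3e2_nodes_sep e0 η hη0.le 0 i l hil) M
    (fun i => hM _ ((hx10 i).trans (by nlinarith))) e1 (by rw [sub_self, norm_zero]; positivity)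
  refine h.trans ?_
  -- constants
  set t : ℝ := A / r with ht
  have ht2 : 2 ≤ t := by
    rw [ht, le_div_iff₀ hr0]
    nlinarith
  have hbase : 12 * A / η ≤ t ^ (16 : ℕ) := by
    have e1 : 12 * A / η = 11520 * (A ^ 2 / r) := by
      rw [hη]; field_simp; ring
    have e2 : A ^ 2 / r ≤ t ^ 2 := by
      rw [ht, div_pow, div_le_div_iff₀ hr0 (by positivity)]
      have : r ^ 2 ≤ r := by nlinarith
      nlinarith [sq_nonneg A]
    have e3 : (11520 : ℝ) ≤ t ^ 14 := by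
      calc (11520 : ℝ) ≤ 2 ^ 14 := by norm_num
        _ ≤ t ^ 14 := pow_le_pow_left₀ (by norm_num) ht2 14
    calc 12 * A / η = 11520 * (A ^ 2 / r) := e1
      _ ≤ t ^ 14 * t ^ 2 := mul_le_mul e3 e2 (by positivity) (by positivity)
      _ = t ^ 16 := by ring
  have hpow : (12 * A / η) ^ C₁ ≤ t ^ (16 * C₁) := by
    calc (12 * A / η) ^ C₁ ≤ (t ^ (16 : ℕ)) ^ C₁ :=
          Real.rpow_le_rpow (by positivity) hbase (by linarith)
      _ = t ^ (16 * C₁) := by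
          rw [← Real.rpow_natCast, ← Real.rpow_mul (by positivity)]
          norm_num
  have ht0 : 0 ≤ t ^ (16 * C₁) := Real.rpow_nonneg (by positivity) _
  calc C₁ * (12 * A / η) ^ C₁ * M ≤ C₁ * t ^ (16 * C₁) * M := by gcongr
    _ ≤ 16 * C₁ * t ^ (16 * C₁) * M := by
        have : C₁ ≤ 16 * C₁ := by linarith
        gcongr

theorem k3e2_ln_eq (a v : Fin n → ℂ) (s : ℂ) : k3e2Ln a v s = a + s • v := by
  funext i
  simp [k3e2Ln]

theorem k3e2_pt_eq (z0 α : Fin n → ℂ) (s : ℂ) : k3bPt z0 α s = z0 + s • (α - z0) := by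
  funext i
  simp [k3bPt]

/-- **LEAF L-252-S3e2-T2a: small source ball → anchor ball of radius `1/(6A)`** (chief's LINE/FWD).  For `β = z` use T1 on the line `a = z0`, `v = β - z0` (`‖v‖ ≤ 4`), path `0 → σ → 1`, slack `8 A`: for `s` within `1/(8A)` of a path point `s_p` (`‖s_p‖ ≤ 2`):
`a + s v = k3bPt z0 α s_p + (s_p (β - α) + (s - s_p) v)`, `‖..‖ < 2/(6A) + 4/(8A) < 1/A`.   Nodes `x i = i η`, `η = min (1/(640 A)) (r/40)`: `‖a + x_i v - z0‖ ≤ 40 η ≤ r`.  Target `s = 1`. -/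
theorem k3e2_fwd (n : ℕ) : ∃ C : ℝ, 1 ≤ C ∧ ∀ (A r : ℝ), 2 ≤ A → 0 < r → r ≤ 1 → ∀ (P Q : K3bEq n) (z0 α : Fin n → ℂ) (σ : ℂ), ‖z0‖ ≤ 1 → ‖α‖ ≤ 2 → ‖σ‖ ≤ 2 → K3e2Bd P.dsc A → K3bSafe P.dsc z0 α σ A →
    ∀ f : (Fin n → ℂ) → ℂ, K3e2Root P (k3bTubeN z0 α σ (1 / A)) f → ∀ M : ℝ, (∀ z, ‖z - z0‖ ≤ r → ‖Q.ev z (f z)‖ ≤ M) →
    ∀ z, ‖z - α‖ ≤ 1 / (6 * A) → ‖Q.ev z (f z)‖ ≤ C * (A / r) ^ C * M := by
  obtain ⟨C, hC, H⟩ := k3e2_transfer n
  refine ⟨C, hC, ?_⟩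
  intro A r hA hr0 hr1 P Q z0 α σ hz0 hα hσ hBd hSafe f hf M hM z hz
  have hA0 : 0 < A := by linarith
  have h6 : 1 / (6 * A) ≤ 1 / 12 := one_div_le_one_div_of_le (by norm_num) (by linarith)
  have hv : ‖z - z0‖ ≤ 4 := by
    have e : z - z0 = (z - α) + α - z0 := by abel
    rw [e]
    calc ‖(z - α) + α - z0‖ ≤ ‖(z - α) + α‖ + ‖z0‖ := norm_sub_le _ _
      _ ≤ ‖z - α‖ + ‖α‖ + ‖z0‖ := by gcongr; exact norm_add_le _ _
      _ ≤ 4 := by linarith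
  have h := H A r hA hr0 hr1 P Q z0 α σ hσ hBd hSafe f hf z0 (z - z0) 0 1 (by linarith) hv (by simp) (by simp) rfl
    (fun sp hsp s hs => by
      have e : k3e2Ln z0 (z - z0) s - k3bPt z0 α sp = sp • (z - α) + (s - sp) • (z - z0) := by
        rw [k3e2_ln_eq, k3e2_pt_eq]
        module
      rw [e]
      have hsp2 := k3e2_path_norm hσ hsp
      have h1 : ‖sp • (z - α)‖ ≤ 2 * (1 / (6 * A)) := by
        rw [norm_smul]
        exact mul_le_mul hsp2 hz (norm_nonneg _) (by norm_num)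
      have h2 : ‖(s - sp) • (z - z0)‖ ≤ 1 / (12 * A) * 4 := by
        rw [norm_smul]
        exact mul_le_mul hs.le hv (norm_nonneg _) (by positivity)
      have h3 : 2 * (1 / (6 * A)) + 1 / (12 * A) * 4 < 1 / A := by
        have e3 : 2 * (1 / (6 * A)) + 1 / (12 * A) * 4 = (2 / 3) * (1 / A) := by
          field_simp
          ring
        rw [e3]
        have : 0 < 1 / A := by positivity
        linarith
      exact ((norm_add_le _ _).trans (add_le_add h1 h2)).trans_lt h3) M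
    (fun s hs => hM _ (by
      have e : k3e2Ln z0 (z - z0) s - z0 = s • (z - z0) := by
        rw [k3e2_ln_eq]
        module
      rw [e, norm_smul]
      rw [sub_zero] at hs
      calc ‖s‖ * ‖z - z0‖ ≤ r / 4 * 4 := mul_le_mul hs hv (norm_nonneg _) (by positivity)
        _ = r := by ring))
  have e1 : k3e2Ln z0 (z - z0) 1 = z := by
    rw [k3e2_ln_eq]
    module
  rwa [e1] at h

/-- **LEAF L-252-S3e2-T2b: small anchor ball → source ball of radius `1/(6A)`** (the return, 03 l.1455-1462; chief's LINE backwards).  For `z* = z` use T1 on the line `a = z*`, `v = α - z*`, path `1 → σ → 0` (`k3bPath 1 σ 0 = k3bPath 0 σ 1`: `segment_symm`, `Set.union_comm`), slack `12 A`: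
`a + s v = k3bPt z0 α s_p + ((1 - s_p) (z* - z0) + (s - s_p) v)`, `‖..‖ < 3/(6A) + 4/(12A) < 1/A`.   Nodes `x i = 1 + i η`.  Target `s = 0`. -/
theorem k3e2_bwd (n : ℕ) : ∃ C : ℝ, 1 ≤ C ∧ ∀ (A r : ℝ), 2 ≤ A → 0 < r → r ≤ 1 → ∀ (P Q : K3bEq n) (z0 α : Fin n → ℂ) (σ : ℂ), ‖z0‖ ≤ 1 → ‖α‖ ≤ 2 → ‖σ‖ ≤ 2 → K3e2Bd P.dsc A → K3bSafe P.dsc z0 α σ A →
    ∀ f : (Fin n → ℂ) → ℂ, K3e2Root P (k3bTubeN z0 α σ (1 / A)) f → ∀ M : ℝ, (∀ z, ‖z - α‖ ≤ r → ‖Q.ev z (f z)‖ ≤ M) →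
    ∀ z, ‖z - z0‖ ≤ 1 / (6 * A) → ‖Q.ev z (f z)‖ ≤ C * (A / r) ^ C * M := by
  obtain ⟨C, hC, H⟩ := k3e2_transfer n
  refine ⟨C, hC, ?_⟩
  intro A r hA hr0 hr1 P Q z0 α σ hz0 hα hσ hBd hSafe f hf M hM z hz
  have hA0 : 0 < A := by linarith
  have h6 : 1 / (6 * A) ≤ 1 / 12 := one_div_le_one_div_of_le (by norm_num) (by linarith)
  have hz4 : ‖z‖ ≤ 2 := by
    have e : z = (z - z0) + z0 := by abel
    rw [e]
    calc ‖(z - z0) + z0‖ ≤ ‖z - z0‖ + ‖z0‖ := norm_add_le _ _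
      _ ≤ 2 := by linarith
  have hv : ‖α - z‖ ≤ 4 := (norm_sub_le _ _).trans (by linarith)
  have hpath : k3bPath 1 σ 0 = k3bPath 0 σ 1 := by
    unfold k3bPath
    rw [segment_symm ℝ 1 σ, segment_symm ℝ σ 0, Set.union_comm]
  have h := H A r hA hr0 hr1 P Q z0 α σ hσ hBd hSafe f hf z (α - z) 1 0 (by linarith) hv (by simp) (by simp) hpath
    (fun sp hsp s hs => by
      have e : k3e2Ln z (α - z) s - k3bPt z0 α sp = (1 - sp) • (z - z0) + (s - sp) • (α - z) := by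
        rw [k3e2_ln_eq, k3e2_pt_eq]
        module
      rw [e]
      have hsp2 := k3e2_path_norm hσ hsp
      have hsp3 : ‖1 - sp‖ ≤ 3 := by
        calc ‖1 - sp‖ ≤ ‖(1 : ℂ)‖ + ‖sp‖ := norm_sub_le _ _
          _ ≤ 3 := by rw [norm_one]; linarith
      have h1 : ‖(1 - sp) • (z - z0)‖ ≤ 3 * (1 / (6 * A)) := by
        rw [norm_smul]
        exact mul_le_mul hsp3 hz (norm_nonneg _) (by norm_num)
      have h2 : ‖(s - sp) • (α - z)‖ ≤ 1 / (12 * A) * 4 := by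
        rw [norm_smul]
        exact mul_le_mul hs.le hv (norm_nonneg _) (by positivity)
      have h3 : 3 * (1 / (6 * A)) + 1 / (12 * A) * 4 < 1 / A := by
        have e3 : 3 * (1 / (6 * A)) + 1 / (12 * A) * 4 = (5 / 6) * (1 / A) := by
          field_simp
          ring
        rw [e3]
        have : 0 < 1 / A := by positivity
        linarith
      exact ((norm_add_le _ _).trans (add_le_add h1 h2)).trans_lt h3) M
    (fun s hs => hM _ (by
      have e : k3e2Ln z (α - z) s - α = (s - 1) • (α - z) := by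
        rw [k3e2_ln_eq]
        module
      rw [e, norm_smul]
      calc ‖s - 1‖ * ‖α - z‖ ≤ r / 4 * 4 := mul_le_mul hs hv (norm_nonneg _) (by positivity)
        _ = r := by ring))
  have e1 : k3e2Ln z (α - z) 0 = z := by
    rw [k3e2_ln_eq]
    module
  rwa [e1] at h

/-- the tube of the constant path is a disc -/
theorem k3e2_tube_zero {s : ℂ} {ρ : ℝ} (hs : s ∈ k3bTube 0 0 0 ρ) : ‖s‖ < ρ := by
  unfold k3bTube k3bPath at hs
  rw [segment_same, Set.union_self, Metric.mem_thickening_iff] at hs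
  obtain ⟨z, hz, h⟩ := hs
  rw [Set.mem_singleton_iff] at hz
  rw [hz, dist_zero_right] at h
  exact h

theorem k3e2_node_norm (hn : ℝ) (hh0 : 0 < hn) (k : Fin 11) : ‖((hn * (((k : ℕ) : ℝ) - 5) : ℝ) : ℂ)‖ ≤ 5 * hn := by
  rw [Complex.norm_real, Real.norm_eq_abs, abs_mul, abs_of_pos hh0]
  have : |((k : ℕ) : ℝ) - 5| ≤ 5 := by
    rw [abs_le]
    constructor
    · have : (0 : ℝ) ≤ ((k : ℕ) : ℝ) := by positivity
      linarith
    · linarith [k3e2_fin11_le k]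
  nlinarith

/-- one coordinate of T5: T1 on the coordinate line through `z` in the direction `j`. -/
theorem k3e2_grid_step (n : ℕ) : ∃ C : ℝ, 1 ≤ C ∧ ∀ (A hn : ℝ), 2 ≤ A → 0 < hn → hn ≤ 1 / (40 * A) → ∀ (P Q : K3bEq n) (α : Fin n → ℂ), ‖α‖ ≤ 2 → K3e2Bd P.dsc A → K3e2Low P.dsc α A →
    ∀ f : (Fin n → ℂ) → ℂ, K3e2Root P (Metric.ball α (1 / A)) f → ∀ (z : Fin n → ℂ), ‖z - α‖ ≤ 1 / (8 * A) → ∀ (j : Fin n) (B : ℝ),
    (∀ k : Fin 11, ‖Q.ev (Function.update z j (α j + ((hn * (((k : ℕ) : ℝ) - 5) : ℝ) : ℂ))) (f (Function.update z j (α j + ((hn * (((k : ℕ) : ℝ) - 5) : ℝ) : ℂ))))‖ ≤ B) →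
    ‖Q.ev z (f z)‖ ≤ C * (A / hn) ^ C * B := by
  obtain ⟨C₁, hC₁, H⟩ := k3e2_line n
  refine ⟨C₁, hC₁, ?_⟩
  intro A hn hA hh0 hh1 P Q α hα hBd hLow f hf z hz j B hB
  have hA0 : 0 < A := by linarith
  have h8 : 1 / (8 * A) ≤ 1 / 16 := one_div_le_one_div_of_le (by norm_num) (by linarith)
  have h8A : 1 / (8 * A) < 1 / A := one_div_lt_one_div_of_lt hA0 (by linarith)
  have hh5 : 5 * hn ≤ 1 / (8 * A) := by
    have : 5 * (1 / (40 * A)) = 1 / (8 * A) := by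
      field_simp
      norm_num
    linarith
  have hhn1 : hn ≤ 1 := by
    have : 1 / (40 * A) ≤ 1 := by
      rw [div_le_one (by positivity)]
      linarith
    linarith
  set a : Fin n → ℂ := Function.update z j (α j) with ha
  set v : Fin n → ℂ := Pi.single j 1 with hv
  have hln : ∀ s : ℂ, k3e2Ln a v s = Function.update z j (α j + s) := by
    intro s
    funext i
    unfold k3e2Ln
    by_cases hi : i = j
    · subst hi
      simp [ha, hv]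
    · simp [ha, hv, hi]
  have hzi : ∀ i, ‖z i - α i‖ ≤ 1 / (8 * A) := fun i => (norm_le_pi_norm (z - α) i).trans hz
  have hzn : ‖z‖ ≤ 3 := by
    have e : z = (z - α) + α := by abel
    rw [e]
    exact (norm_add_le _ _).trans (by linarith)
  have han : ‖a‖ ≤ 4 := by
    rw [pi_norm_le_iff_of_nonneg (by norm_num)]
    intro i
    by_cases hi : i = j
    · subst hi
      simp only [ha, Function.update_self]
      exact (norm_le_pi_norm α i).trans (by linarith)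
    · simp only [ha, Function.update_of_ne hi]
      exact (norm_le_pi_norm z i).trans (by linarith)
  have hvn : ‖v‖ ≤ 4 := by
    rw [pi_norm_le_iff_of_nonneg (by norm_num)]
    intro i
    by_cases hi : i = j
    · subst hi
      simp [hv]
    · simp [hv, hi]
  have hball : ∀ s : ℂ, ‖s‖ < 1 / A → ‖k3e2Ln a v s - α‖ < 1 / A := by
    intro s hs
    rw [pi_norm_lt_iff (by positivity)]
    intro i
    rw [hln]
    by_cases hi : i = j
    · subst hi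
      simpa using hs
    · simp only [Pi.sub_apply, Function.update_of_ne hi]
      exact (hzi i).trans_lt h8A
  have hmaps : Set.MapsTo (k3e2Ln a v) (k3bTube 0 0 0 (1 / A)) (Metric.ball α (1 / A)) := by
    intro s hs
    rw [Metric.mem_ball, dist_eq_norm]
    exact hball s (k3e2_tube_zero hs)
  have h := H A hn hA hh0 hhn1 P Q a v 0 0 0 han hvn (by simp) (by simp) (by simp) hBd
    (fun s hs => by
      have h1 := hLow (k3e2Ln a v s - α) (hball s (k3e2_tube_zero hs)).le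
      rwa [add_sub_cancel] at h1)
    (fun s => f (k3e2Ln a v s)) (hf.1.comp (k3e2_ln_cont a v).continuousOn hmaps)
    (fun s hs => hf.2 _ (hmaps hs))
    (fun k => 0 + ((hn * (((k : ℕ) : ℝ) - 5) : ℝ) : ℂ))
    (fun k => by
      rw [add_sub_cancel_left]
      exact (k3e2_node_norm hn hh0 k).trans hh5)
    (fun i l hil => k3e2_nodes_sep 0 hn hh0.le 5 i l hil) B
    (fun k => by
      simp only [hln, zero_add]
      exact hB k)
    (z j - α j) (by rw [sub_zero]; exact hzi j)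
  have e1 : k3e2Ln a v (z j - α j) = z := by
    rw [hln]
    simp
  simp only [e1] at h
  exact h

/-- **LEAF L-252-S3e2-T5: the tensor grid controls the polydisc** (chief's LOCAL; used at the source, REAL grid → COMPLEX polydisc, and at the anchor).  Induction on the number `j` of free coordinates: claim `(j)`: the bound `(C₁ (A/hn)^{C₁})^j M` holds at all `z` with
`‖z i - α i‖ ≤ 1/(8A)` for `i < j` and `z i = node i` for `i ≥ j`.   Step: T1 with `e0 = σ = e1 = 0` (the tube is the disc of radius `1/A`), slack `A`, `a = Function.update z j (α j)`, `v = Pi.single j 1`, nodes `x i = hn (i - 5)`, `η = hn`;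
in the sup norm `‖a + s v - α‖ = max (‖a - α‖) ‖s‖ < 1/A`. -/
theorem k3e2_grid_ball (n : ℕ) : ∃ C : ℝ, 1 ≤ C ∧ ∀ (A hn : ℝ), 2 ≤ A → 0 < hn → hn ≤ 1 / (40 * A) → ∀ (P Q : K3bEq n) (α : Fin n → ℂ), ‖α‖ ≤ 2 → K3e2Bd P.dsc A → K3e2Low P.dsc α A →
    ∀ f : (Fin n → ℂ) → ℂ, K3e2Root P (Metric.ball α (1 / A)) f → ∀ M : ℝ, (∀ κ : Fin n → Fin 11, ‖Q.ev (k3e2Node α hn κ) (f (k3e2Node α hn κ))‖ ≤ M) →
    ∀ z, ‖z - α‖ ≤ 1 / (8 * A) → ‖Q.ev z (f z)‖ ≤ C * (1 / hn) ^ C * M := by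
  obtain ⟨C₁, hC₁, H⟩ := k3e2_grid_step n
  have hC₁0 : 0 ≤ C₁ := by linarith
  refine ⟨C₁ ^ n + 2 * C₁ * n + 1, ?_, ?_⟩
  · have h1 : 0 ≤ C₁ ^ n := by positivity
    have h2 : 0 ≤ 2 * C₁ * n := by positivity
    linarith
  intro A hn hA hh0 hh1 P Q α hα hBd hLow f hf M hM z hz
  have hA0 : 0 < A := by linarith
  have hM0 : 0 ≤ M := (norm_nonneg _).trans (hM fun _ => 0)
  set K : ℝ := C₁ * (A / hn) ^ C₁ with hK
  have hK0 : 0 ≤ K := by positivity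
  have hh5 : 5 * hn ≤ 1 / (8 * A) := by
    have : 5 * (1 / (40 * A)) = 1 / (8 * A) := by
      field_simp
      norm_num
    linarith
  have claim : ∀ S : Finset (Fin n), ∀ z : Fin n → ℂ, (∀ i, ‖z i - α i‖ ≤ 1 / (8 * A)) →
      (∀ i, i ∉ S → ∃ k : Fin 11, z i = α i + ((hn * (((k : ℕ) : ℝ) - 5) : ℝ) : ℂ)) → ‖Q.ev z (f z)‖ ≤ K ^ S.card * M := by
    intro S
    induction S using Finset.induction_on with
    | empty =>
      intro z _ hnode
      choose κ hκ using fun i => hnode i (Finset.notMem_empty i)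
      have e : z = k3e2Node α hn κ := funext hκ
      rw [e]
      simpa using hM κ
    | insert j S hj ih =>
      intro z hzi hnode
      rw [Finset.card_insert_of_notMem hj, pow_succ', mul_assoc]
      refine H A hn hA hh0 hh1 P Q α hα hBd hLow f hf z ((pi_norm_le_iff_of_nonneg (by positivity)).2 hzi) j _ (fun k => ?_)
      apply ih
      · intro i
        by_cases hi : i = j
        · subst hi
          rw [Function.update_self, add_sub_cancel_left]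
          exact (k3e2_node_norm hn hh0 k).trans hh5
        · rw [Function.update_of_ne hi]
          exact hzi i
      · intro i hi
        by_cases hij : i = j
        · subst hij
          exact ⟨k, by rw [Function.update_self]⟩
        · rw [Function.update_of_ne hij]
          exact hnode i (by simp [hij, hi])
  have h := claim Finset.univ z (fun i => (norm_le_pi_norm (z - α) i).trans hz) (fun i hi => absurd (Finset.mem_univ i) hi)
  rw [Finset.card_univ, Fintype.card_fin] at h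
  refine h.trans ?_
  -- constants
  set t : ℝ := 1 / hn with ht
  have ht0 : 0 < t := by positivity
  have h40 : 40 * A * hn ≤ 1 := by
    rw [le_div_iff₀ (by positivity)] at hh1
    linarith
  have ht1 : 1 ≤ t := by
    rw [ht, le_div_iff₀ hh0]
    nlinarith
  have hAt : A ≤ t := by
    rw [ht, le_div_iff₀ hh0]
    nlinarith
  have hbase : A / hn ≤ t ^ (2 : ℕ) := by
    have e : A / hn = A * t := by rw [ht]; ring
    rw [e, sq]
    exact mul_le_mul_of_nonneg_right hAt ht0.le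
  have hpow : (A / hn) ^ C₁ ≤ t ^ (2 * C₁) := by
    calc (A / hn) ^ C₁ ≤ (t ^ (2 : ℕ)) ^ C₁ := Real.rpow_le_rpow (by positivity) hbase hC₁0
      _ = t ^ (2 * C₁) := by
          rw [← Real.rpow_natCast, ← Real.rpow_mul ht0.le]
          norm_num
  have hKle : K ≤ C₁ * t ^ (2 * C₁) := by
    rw [hK]
    gcongr
  have hKn : K ^ n ≤ C₁ ^ n * t ^ (2 * C₁ * n) := by
    calc K ^ n ≤ (C₁ * t ^ (2 * C₁)) ^ n := pow_le_pow_left₀ hK0 hKle n
      _ = C₁ ^ n * t ^ (2 * C₁ * n) := by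
          rw [mul_pow, ← Real.rpow_natCast (t ^ (2 * C₁)) n, ← Real.rpow_mul ht0.le]
  have h1 : 0 ≤ C₁ ^ n := by positivity
  have h2 : 0 ≤ 2 * C₁ * n := by positivity
  have hexp : t ^ (2 * C₁ * n) ≤ t ^ (C₁ ^ n + 2 * C₁ * n + 1) := Real.rpow_le_rpow_of_exponent_le ht1 (by linarith)
  have ht3 : 0 ≤ t ^ (C₁ ^ n + 2 * C₁ * n + 1) := Real.rpow_nonneg ht0.le _
  calc K ^ n * M ≤ C₁ ^ n * t ^ (2 * C₁ * n) * M := by gcongr
    _ ≤ C₁ ^ n * t ^ (C₁ ^ n + 2 * C₁ * n + 1) * M := by gcongr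
    _ ≤ (C₁ ^ n + 2 * C₁ * n + 1) * t ^ (C₁ ^ n + 2 * C₁ * n + 1) * M := by
        have : C₁ ^ n ≤ C₁ ^ n + 2 * C₁ * n + 1 := by linarith
        gcongr

end

end Claimed.Agent.R252
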